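import Mathlib

/-!
Regular measures, the Riesz kernel and integrals over annuli.
-/

set_option linter.unusedSectionVars false

open MeasureTheory Filter Topology Set Metric
open scoped RealInnerProductSpace

namespace Vale.Agent.P120.Flat

noncomputable section

variable {X : Type*} [NormedAddCommGroup X] [InnerProductSpace ℝ X]

/-- The `n`-dimensional Riesz kernel. -/
def kern (n : ℕ) (z : X) : X := (‖z‖ ^ (n + 1))⁻¹ • z

/-- Annulus around `x`. -/
def ann (x : X) (r ρ : ℝ) : Set X := {y | r ≤ ‖x - y‖ ∧ ‖x - y‖ < ρ}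

variable [MeasurableSpace X]

/-- Regularity of `μ` on `S` up to the scale `r₀`. -/
structure Reg (μ : Measure X) (S : Set X) (n : ℕ) (C r₀ : ℝ) : Prop where
  closed : IsClosed S
  null : μ Sᶜ = 0
  C_pos : 0 < C
  r_pos : 0 < r₀
  lower : ∀ x ∈ S, ∀ r, 0 < r → r ≤ r₀ → r ^ n / C ≤ μ.real (ball x r)
  upper : ∀ x ∈ S, ∀ r, 0 < r → r ≤ r₀ → μ.real (ball x r) ≤ C * r ^ n

variable [BorelSpace X]

lemma measurableSet_ann (x : X) (r ρ : ℝ) : MeasurableSet (ann x r ρ) :=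
  ((isClosed_le (f := fun _ : X => r) (g := fun y => ‖x - y‖) (by fun_prop)
      (by fun_prop)).measurableSet).inter
    (isOpen_lt (f := fun y : X => ‖x - y‖) (g := fun _ => ρ) (by fun_prop)
      (by fun_prop)).measurableSet

omit [MeasurableSpace X] [BorelSpace X] in
lemma ann_subset_ball (x : X) (r ρ : ℝ) : ann x r ρ ⊆ ball x ρ := fun y hy => by
  rw [mem_ball, dist_eq_norm, norm_sub_rev]; exact hy.2

omit [MeasurableSpace X] [BorelSpace X] in
lemma ann_union {x : X} {a b c : ℝ} (hab : a ≤ b) (hbc : b ≤ c) :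
    ann x a b ∪ ann x b c = ann x a c := by
  ext y; simp only [ann, mem_union, mem_ofPred_eq]
  constructor
  · rintro (⟨h1, h2⟩ | ⟨h1, h2⟩) <;> constructor <;> linarith
  · rintro ⟨h1, h2⟩
    rcases lt_or_ge ‖x - y‖ b with h | h
    · exact Or.inl ⟨h1, h⟩
    · exact Or.inr ⟨h, h2⟩

omit [MeasurableSpace X] [BorelSpace X] in
lemma ann_disjoint (x : X) (a b c : ℝ) : Disjoint (ann x a b) (ann x b c) :=
  Set.disjoint_left.2 fun _ h h' => absurd h'.1 (not_le.2 h.2)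

variable [FiniteDimensional ℝ X]

lemma measurable_kern (n : ℕ) : Measurable (kern n : X → X) := by
  unfold kern
  exact ((measurable_norm.pow_const _).inv).smul measurable_id

omit [MeasurableSpace X] [BorelSpace X] [FiniteDimensional ℝ X] in
lemma norm_kern (n : ℕ) (z : X) : ‖kern n z‖ = ‖z‖ * (‖z‖ ^ (n + 1))⁻¹ := by
  rw [kern, norm_smul, norm_inv, norm_pow, norm_norm, mul_comm]

omit [MeasurableSpace X] [BorelSpace X] [FiniteDimensional ℝ X] in
lemma norm_kern_le (n : ℕ) {z : X} {r : ℝ} (hr : 0 < r) (hz : r ≤ ‖z‖) :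
    ‖kern n z‖ ≤ (r ^ n)⁻¹ := by
  have h0 : 0 < ‖z‖ := hr.trans_le hz
  rw [norm_kern, pow_succ, mul_inv, mul_left_comm, mul_inv_cancel₀ h0.ne', mul_one]
  exact inv_anti₀ (pow_pos hr n) (pow_le_pow_left₀ hr.le hz n)

omit [MeasurableSpace X] [BorelSpace X] [FiniteDimensional ℝ X] in
/-- Smoothness of the kernel away from the origin. -/
lemma norm_kern_add_sub_le (n : ℕ) {z w : X} (h : 2 * ‖w‖ ≤ ‖z‖) :
    ‖kern n (z + w) - kern n z‖ ≤
      (2 ^ (n + 1) + ((n : ℝ) + 1) * 4 ^ (n + 1)) * ‖w‖ * (‖z‖ ^ (n + 1))⁻¹ := by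
  rcases eq_or_ne z 0 with rfl | hz
  · have : w = 0 := norm_le_zero_iff.1 (by simp at h; linarith [norm_nonneg w])
    simp [this]
  set m := n + 1 with hm
  have hb : 0 < ‖z‖ := norm_pos_iff.2 hz
  set a := ‖z + w‖ with ha
  have h1 : ‖z‖ - ‖w‖ ≤ a := by
    have := norm_sub_norm_le z (-w); simpa [sub_neg_eq_add] using this
  have h2 : a ≤ ‖z‖ + ‖w‖ := norm_add_le _ _
  have ha0 : 0 < a := by linarith [norm_nonneg w]
  have hA : (‖z‖ / 2) ^ m ≤ a ^ m := pow_le_pow_left₀ (by positivity) (by linarith) m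
  have hinv : (a ^ m)⁻¹ ≤ 2 ^ m * (‖z‖ ^ m)⁻¹ := by
    refine (inv_anti₀ (by positivity) hA).trans_eq ?_
    rw [div_pow, inv_div, div_eq_mul_inv]
  have habs : |‖z‖ - a| ≤ ‖w‖ := abs_sub_le_iff.2 ⟨by linarith, by linarith⟩
  have hpow : |‖z‖ ^ m - a ^ m| ≤ ‖w‖ * ((n : ℝ) + 1) * (2 * ‖z‖) ^ n := by
    refine (abs_pow_sub_pow_le ‖z‖ a m).trans ?_
    rw [show m - 1 = n by omega, hm, Nat.cast_add, Nat.cast_one, abs_norm, abs_of_pos ha0]
    refine mul_le_mul (mul_le_mul_of_nonneg_right habs (by positivity)) ?_ (by positivity)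
      (by positivity)
    exact pow_le_pow_left₀ (le_max_of_le_left hb.le) (max_le (by linarith) (by linarith)) n
  have hdiff : |(a ^ m)⁻¹ - (‖z‖ ^ m)⁻¹| * ‖z‖ ≤
      ((n : ℝ) + 1) * 4 ^ m * ‖w‖ * (‖z‖ ^ m)⁻¹ := by
    rw [inv_sub_inv (pow_ne_zero _ ha0.ne') (pow_ne_zero _ hb.ne'), abs_div,
      abs_of_pos (by positivity : (0:ℝ) < a ^ m * ‖z‖ ^ m), div_mul_eq_mul_div, div_eq_mul_inv,
      mul_inv]
    calc |‖z‖ ^ m - a ^ m| * ‖z‖ * ((a ^ m)⁻¹ * (‖z‖ ^ m)⁻¹)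
        ≤ ‖w‖ * ((n : ℝ) + 1) * (2 * ‖z‖) ^ n * ‖z‖ *
            ((2 ^ m * (‖z‖ ^ m)⁻¹) * (‖z‖ ^ m)⁻¹) := by
          refine mul_le_mul (mul_le_mul_of_nonneg_right hpow hb.le)
            (mul_le_mul_of_nonneg_right hinv (by positivity)) (by positivity) (by positivity)
      _ = ((n : ℝ) + 1) * (2 ^ n * 2 ^ m) * ‖w‖ * (‖z‖ ^ m)⁻¹ := by
          have hzz : ‖z‖ ^ n * ‖z‖ * (‖z‖ ^ m)⁻¹ = 1 := by
            rw [← pow_succ, mul_inv_cancel₀ (pow_ne_zero _ hb.ne')]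
          rw [mul_pow]
          linear_combination (‖w‖ * ((n : ℝ) + 1) * 2 ^ n * 2 ^ m * (‖z‖ ^ m)⁻¹) * hzz
      _ ≤ _ := by
          gcongr
          rw [show (4:ℝ) = 2 * 2 by norm_num, mul_pow]
          gcongr
          · norm_num
          · omega
  have hsplit : kern n (z + w) - kern n z =
      (a ^ m)⁻¹ • w + ((a ^ m)⁻¹ - (‖z‖ ^ m)⁻¹) • z := by
    simp only [kern, ← ha, ← hm, smul_add, sub_smul]; abel
  rw [hsplit]
  refine (norm_add_le _ _).trans ?_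
  rw [norm_smul, norm_smul, Real.norm_eq_abs, Real.norm_eq_abs, abs_of_pos (by positivity)]
  nlinarith [mul_le_mul_of_nonneg_right hinv (norm_nonneg w)]

variable {μ : Measure X} [IsLocallyFiniteMeasure μ] {S : Set X} {n : ℕ} {C r₀ : ℝ}

omit [BorelSpace X] in
lemma measureReal_mono_ball {A : Set X} {x : X} {r : ℝ} (h : A ⊆ ball x r) :
    μ.real A ≤ μ.real (ball x r) :=
  measureReal_mono h measure_ball_lt_top.ne

omit [BorelSpace X] in
lemma measure_lt_top_of_subset_ball {A : Set X} {x : X} {r : ℝ} (h : A ⊆ ball x r) : μ A < ⊤ :=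
  (measure_mono h).trans_lt measure_ball_lt_top

lemma integrableOn_ann {F : Type*} [NormedAddCommGroup F] {g : X → F} {x : X} {r ρ c : ℝ}
    (hg : StronglyMeasurable g) (hb : ∀ y ∈ ann x r ρ, ‖g y‖ ≤ c) :
    IntegrableOn g (ann x r ρ) μ :=
  Measure.integrableOn_of_bounded (measure_lt_top_of_subset_ball (ann_subset_ball x r ρ)).ne
    hg.aestronglyMeasurable ((ae_restrict_mem (measurableSet_ann x r ρ)).mono fun y hy => hb y hy)

lemma setIntegral_ann_split {F : Type*} [NormedAddCommGroup F] [NormedSpace ℝ F] {g : X → F}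
    {x : X} {a b c : ℝ} (hab : a ≤ b) (hbc : b ≤ c) (hg : IntegrableOn g (ann x a c) μ) :
    ∫ y in ann x a c, g y ∂μ = (∫ y in ann x a b, g y ∂μ) + ∫ y in ann x b c, g y ∂μ := by
  rw [← ann_union hab hbc] at hg ⊢
  exact setIntegral_union (ann_disjoint x a b c) (measurableSet_ann _ _ _) hg.left_of_union
    hg.right_of_union

lemma stronglyMeasurable_inv_pow (x : X) (m : ℕ) :
    StronglyMeasurable fun y : X => (‖x - y‖ ^ m)⁻¹ := by
  refine Measurable.stronglyMeasurable (((Measurable.norm ?_).pow_const m).inv)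
  exact measurable_const.sub measurable_id

lemma stronglyMeasurable_wt (x : X) (m : ℕ) :
    StronglyMeasurable fun y : X => ‖x - y‖ ^ 2 * (‖x - y‖ ^ m)⁻¹ :=
  ((Continuous.stronglyMeasurable (by fun_prop)).mul (stronglyMeasurable_inv_pow x m))

omit [MeasurableSpace X] [BorelSpace X] [FiniteDimensional ℝ X] in
lemma inv_pow_le {x y : X} {a : ℝ} (m : ℕ) (ha : 0 < a) (hy : a ≤ ‖x - y‖) :
    ‖(‖x - y‖ ^ m)⁻¹‖ ≤ (a ^ m)⁻¹ := by
  rw [norm_inv, norm_pow, norm_norm]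
  exact inv_anti₀ (pow_pos ha m) (pow_le_pow_left₀ ha.le hy m)

omit [MeasurableSpace X] [BorelSpace X] [FiniteDimensional ℝ X] in
lemma wt_le {x y : X} {a b : ℝ} (m : ℕ) (ha : 0 < a) (hy : y ∈ ann x a b) :
    ‖‖x - y‖ ^ 2 * (‖x - y‖ ^ m)⁻¹‖ ≤ b ^ 2 * (a ^ m)⁻¹ := by
  rw [norm_mul, norm_pow, norm_norm]
  exact mul_le_mul (pow_le_pow_left₀ (norm_nonneg _) hy.2.le 2) (inv_pow_le m ha hy.1)
    (norm_nonneg _) (sq_nonneg _)

/-- Dyadic bounds for the two radial integrals. -/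
lemma Reg.dyadic (h : Reg μ S n C r₀) {x : X} (hx : x ∈ S) {ρ : ℝ} (hρ : 0 < ρ) (hρ0 : ρ ≤ r₀) :
    ∀ k : ℕ, (∫ y in ann x (ρ / 2 ^ k) ρ, (‖x - y‖ ^ (n + 1))⁻¹ ∂μ) ≤
        C * 2 ^ (n + 1) * 2 ^ k / ρ ∧
      (∫ y in ann x (ρ / 2 ^ k) ρ, ‖x - y‖ ^ 2 * (‖x - y‖ ^ (n + 1))⁻¹ ∂μ) ≤
        C * 2 ^ (n + 2) * ρ * (1 - 1 / 2 ^ k) := by
  have hC := h.C_pos
  intro k
  induction k with
  | zero =>
    have he : ann x (ρ / 2 ^ 0) ρ = ∅ := eq_empty_of_forall_notMem fun y hy => by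
      have := hy.1; have := hy.2; simp at *; linarith
    rw [he, setIntegral_empty, setIntegral_empty]
    refine ⟨by positivity, by simp⟩
  | succ k ih =>
    set a := ρ / 2 ^ (k + 1) with ha
    have hak : 0 < a := by positivity
    have h2a : ρ / 2 ^ k = 2 * a := by rw [ha, pow_succ]; field_simp
    have hle : 2 * a ≤ ρ := by rw [← h2a]; exact div_le_self hρ.le (one_le_pow₀ (by norm_num))
    have hμ : μ.real (ann x a (2 * a)) ≤ C * (2 * a) ^ n :=
      (measureReal_mono_ball (ann_subset_ball _ _ _)).trans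
        (h.upper x hx _ (by positivity) (hle.trans hρ0))
    have hfin : μ (ann x a (2 * a)) < ⊤ := measure_lt_top_of_subset_ball (ann_subset_ball _ _ _)
    rw [h2a] at ih
    rw [setIntegral_ann_split (b := 2 * a) (by linarith) hle
        (integrableOn_ann (stronglyMeasurable_inv_pow x _) fun y hy => inv_pow_le _ hak hy.1),
      setIntegral_ann_split (b := 2 * a) (by linarith) hle
        (integrableOn_ann (stronglyMeasurable_wt x _) fun y hy => wt_le _ hak hy)]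
    have e1 : ∫ y in ann x a (2 * a), (‖x - y‖ ^ (n + 1))⁻¹ ∂μ ≤
        C * 2 ^ (n + 1) * 2 ^ k / ρ := by
      refine (Real.le_norm_self _).trans ((norm_setIntegral_le_of_norm_le_const hfin
        fun y hy => inv_pow_le _ hak hy.1).trans ?_)
      refine (mul_le_mul_of_nonneg_left hμ (by positivity)).trans_eq ?_
      rw [ha, mul_pow, pow_succ (_ / _), mul_inv]
      field_simp
      ring
    have e2 : ∫ y in ann x a (2 * a), ‖x - y‖ ^ 2 * (‖x - y‖ ^ (n + 1))⁻¹ ∂μ ≤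
        C * 2 ^ (n + 2) * a := by
      refine (Real.le_norm_self _).trans ((norm_setIntegral_le_of_norm_le_const hfin
        fun y hy => wt_le _ hak hy).trans ?_)
      refine (mul_le_mul_of_nonneg_left hμ (by positivity)).trans_eq ?_
      rw [mul_pow 2 a n, pow_succ a]
      field_simp
      ring
    refine ⟨?_, ?_⟩
    · refine (add_le_add e1 ih.1).trans_eq ?_
      rw [pow_succ (2:ℝ) k]; ring
    · refine (add_le_add e2 ih.2).trans_eq ?_
      rw [ha, pow_succ (2:ℝ) k]; field_simp; ring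

lemma Reg.ann_inv_le (h : Reg μ S n C r₀) {x : X} (hx : x ∈ S) {r ρ : ℝ} (hr : 0 < r)
    (hρ0 : ρ ≤ r₀) :
    ∫ y in ann x r ρ, (‖x - y‖ ^ (n + 1))⁻¹ ∂μ ≤ C * 2 ^ (n + 2) / r := by
  have hC := h.C_pos
  rcases le_or_gt ρ r with hle | hlt
  · have he : ann x r ρ = ∅ := eq_empty_of_forall_notMem fun y hy => by linarith [hy.1, hy.2]
    rw [he, setIntegral_empty]; positivity
  obtain ⟨j, hj, hj'⟩ := exists_nat_pow_near (x := ρ / r) (y := (2:ℝ))
    ((one_le_div hr).2 hlt.le) (by norm_num)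
  have hρ : 0 < ρ := hr.trans hlt
  have hsub : ann x r ρ ⊆ ann x (ρ / 2 ^ (j + 1)) ρ := fun y hy =>
    ⟨le_trans (by rw [div_le_iff₀ (by positivity)]; rw [div_lt_iff₀ hr] at hj'; nlinarith) hy.1,
      hy.2⟩
  refine (setIntegral_mono_set (integrableOn_ann (stronglyMeasurable_inv_pow x _)
    fun y hy => inv_pow_le _ (by positivity) hy.1)
    (Eventually.of_forall fun y => by positivity) hsub.eventuallyLE).trans ?_
  refine ((h.dyadic hx hρ hρ0 (j + 1)).1).trans ?_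
  rw [div_le_div_iff₀ hρ hr, pow_succ (2:ℝ) j, pow_succ (2:ℝ) (n + 1)]
  have : 2 ^ j * r ≤ ρ := by rwa [← le_div_iff₀ hr]
  nlinarith [mul_le_mul_of_nonneg_left this (show 0 ≤ C * 2 ^ (n + 1) * 2 by positivity)]

lemma Reg.ann_wt_le (h : Reg μ S n C r₀) {x : X} (hx : x ∈ S) {r ρ : ℝ} (hr : 0 < r)
    (hρ : 0 < ρ) (hρ0 : ρ ≤ r₀) :
    ∫ y in ann x r ρ, ‖x - y‖ ^ 2 * (‖x - y‖ ^ (n + 1))⁻¹ ∂μ ≤ C * 2 ^ (n + 2) * ρ := by
  obtain ⟨k, hk⟩ := pow_unbounded_of_one_lt (ρ / r) (by norm_num : (1:ℝ) < 2)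
  have hsub : ann x r ρ ⊆ ann x (ρ / 2 ^ k) ρ := fun y hy =>
    ⟨le_trans (by rw [div_le_iff₀ (by positivity)]; rw [div_lt_iff₀ hr] at hk; nlinarith) hy.1,
      hy.2⟩
  refine (setIntegral_mono_set (integrableOn_ann (stronglyMeasurable_wt x _)
    fun y hy => wt_le _ (by positivity) hy)
    (Eventually.of_forall fun y => by positivity) hsub.eventuallyLE).trans ?_
  refine ((h.dyadic hx hρ hρ0 k).2).trans (mul_le_of_le_one_right ?_ ?_)
  · have := h.C_pos; positivity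
  · have : (0:ℝ) ≤ 1 / 2 ^ k := by positivity
    linarith

lemma integrableOn_kern (x : X) {r : ℝ} (ρ : ℝ) (hr : 0 < r) :
    IntegrableOn (fun y => kern n (x - y)) (ann x r ρ) μ :=
  integrableOn_ann
    (((measurable_kern n).comp (measurable_const.sub measurable_id)).stronglyMeasurable)
    fun _ hy => norm_kern_le n hr hy.1

end

end Vale.Agent.P120.Flat
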