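import Vale.Agent.P120.Flat.Uniform

/-!
Very flat balls of a regular set contain balls of comparable radius that are close to an affine
`n`-plane on both sides; such balls rule out uniform disconnectedness.
-/

set_option linter.unusedSectionVars false

open MeasureTheory Filter Topology Set Metric
open scoped RealInnerProductSpace

namespace Vale.Agent.P120.Flat

noncomputable section

variable {X : Type*} [NormedAddCommGroup X] [InnerProductSpace ℝ X] [FiniteDimensional ℝ X]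
  [MeasurableSpace X] [BorelSpace X]
variable {μ : Measure X} [IsLocallyFiniteMeasure μ] {S : Set X} {n : ℕ} {C r₀ Cb : ℝ}

/-- `S ∩ closedBall x r` is `η r`-close, on both sides, to an affine plane of dimension `k`. -/
def Bilateral (S : Set X) (k : ℕ) (x : X) (r η : ℝ) : Prop :=
  ∃ p : X, ∃ W : Submodule ℝ X, Module.finrank ℝ W = k ∧
    (∀ y ∈ S, dist y x ≤ r → ∃ w ∈ W, ‖y - (p + w)‖ ≤ η * r) ∧
    ∀ w ∈ W, dist (p + w) x ≤ r → ∃ y ∈ S, ‖y - (p + w)‖ ≤ η * r

/-- No two distinct points of `S` are joined by a chain in `S` with steps at most `δ` times their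
distance. -/
def NoFineChains (S : Set X) (δ : ℝ) : Prop :=
  ∀ (m : ℕ) (c : ℕ → X), (∀ i ≤ m, c i ∈ S) → c 0 ≠ c m →
    ∃ i < m, δ * ‖c 0 - c m‖ < ‖c (i + 1) - c i‖

omit [MeasurableSpace X] [BorelSpace X] in
/-- Coordinates for a subspace of dimension at most `n`. -/
lemma exists_coords {W : Submodule ℝ X} (hW : Module.finrank ℝ W ≤ n) :
    ∃ e : Fin n → X, (∀ i, ‖e i‖ ≤ 1) ∧ (∀ w ∈ W, ‖w‖ ≤ ∑ i, |⟪e i, w⟫|) ∧
      ∀ i : Fin n, Module.finrank ℝ W ≤ (i : ℕ) → e i = 0 := by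
  classical
  let b := stdOrthonormalBasis ℝ W
  refine ⟨fun i => if hi : (i : ℕ) < Module.finrank ℝ W then ((b ⟨i, hi⟩ : W) : X) else 0,
    fun i => ?_, fun w hw => ?_, fun i hi => dif_neg (not_lt.2 hi)⟩
  · dsimp only
    split
    · exact le_of_eq (by rw [Submodule.norm_coe]; exact b.orthonormal.1 _)
    · simp
  · have h1 : ‖(⟨w, hw⟩ : W)‖ ≤ ∑ j, |⟪((b j : W) : X), w⟫| := by
      conv_lhs => rw [← b.sum_repr' ⟨w, hw⟩]
      refine (norm_sum_le _ _).trans (Finset.sum_le_sum fun j _ => le_of_eq ?_)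
      rw [norm_smul, b.orthonormal.1, mul_one, Real.norm_eq_abs, Submodule.coe_inner]
    refine h1.trans ?_
    refine le_trans (le_of_eq ?_) (Finset.sum_le_sum_of_subset_of_nonneg
      (s := Finset.univ.map ⟨Fin.castLE hW, Fin.castLE_injective hW⟩) (Finset.subset_univ _)
      fun i _ _ => abs_nonneg _)
    rw [Finset.sum_map]
    exact Finset.sum_congr rfl fun j _ => by simp

/-- Index of the grid cell of mesh `hh` in the coordinates `e`. -/
def cellIdx {n : ℕ} (e : Fin n → X) (x : X) (s hh : ℝ) (y : X) (i : Fin n) : ℕ :=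
  ⌊(⟪e i, y - x⟫ + s) / hh⌋₊

/-- Points whose coordinates differ by at most `a` and that are within `ε` of the plane are close. -/
lemma close_of_coords {W : Submodule ℝ X} {e : Fin n → X} (he1 : ∀ i, ‖e i‖ ≤ 1)
    (he2 : ∀ w ∈ W, ‖w‖ ≤ ∑ i, |⟪e i, w⟫|) {p y u w v : X} {a ε ε' : ℝ}
    (hw : w ∈ W) (hv : v ∈ W) (hy : ‖y - (p + w)‖ ≤ ε) (hu : ‖u - (p + v)‖ ≤ ε')
    (hco : ∀ i, |⟪e i, y - u⟫| ≤ a) :
    ‖y - u‖ ≤ (n : ℝ) * (a + (ε + ε')) + (ε + ε') := by
  have herr : ‖(y - u) - (w - v)‖ ≤ ε + ε' := by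
    rw [show (y - u) - (w - v) = (y - (p + w)) - (u - (p + v)) by abel]
    exact (norm_sub_le _ _).trans (add_le_add hy hu)
  have hwv : ‖w - v‖ ≤ ∑ _i : Fin n, (a + (ε + ε')) := by
    refine (he2 _ (W.sub_mem hw hv)).trans (Finset.sum_le_sum fun i _ => ?_)
    rw [show w - v = (y - u) - ((y - u) - (w - v)) by abel, inner_sub_right]
    refine (abs_sub _ _).trans (add_le_add (hco i) ((abs_real_inner_le_norm _ _).trans ?_))
    exact (mul_le_mul (he1 i) herr (norm_nonneg _) zero_le_one).trans_eq (one_mul _)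
  simp only [Finset.sum_const, Finset.card_univ, Fintype.card_fin, nsmul_eq_mul] at hwv
  have := norm_add_le ((y - u) - (w - v)) (w - v)
  rw [sub_add_cancel] at this
  linarith

lemma abs_sub_le_of_floor {a b hh : ℝ} (hh0 : 0 < hh) (ha : 0 ≤ a) (hb : 0 ≤ b)
    (h : ⌊a / hh⌋₊ = ⌊b / hh⌋₊) : |a - b| ≤ hh := by
  have f1 := Nat.floor_le (div_nonneg ha hh0.le)
  have f2 := Nat.lt_floor_add_one (a / hh)
  have f3 := Nat.floor_le (div_nonneg hb hh0.le)
  have f4 := Nat.lt_floor_add_one (b / hh)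
  rw [h] at f1 f2
  rw [le_div_iff₀ hh0] at f1 f3
  rw [div_lt_iff₀ hh0] at f2 f4
  exact abs_le.2 ⟨by linarith, by linarith⟩

/-- Flat balls have a grid cell all whose children meet the set. -/
lemma Reg.exists_full_cell (h : Reg μ S n C r₀) {N : ℕ} (hN : 2 ≤ N) :
    ∃ m : ℕ, ∀ x ∈ S, ∀ (s : ℝ) (p : X) (W : Submodule ℝ X) (e : Fin n → X), 0 < s →
      6 * (3 * (n : ℝ) + 2) * s ≤ r₀ → (∀ i, ‖e i‖ ≤ 1) → (∀ w ∈ W, ‖w‖ ≤ ∑ i, |⟪e i, w⟫|) →
      (∀ y ∈ S, dist y x ≤ s → ∃ w ∈ W, ‖y - (p + w)‖ ≤ 3 * s / (N : ℝ) ^ m) →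
      ∃ l < m, ∃ b : Fin n → ℕ, ∀ v : Fin n → ℕ, (∀ i, b i * N ≤ v i ∧ v i < b i * N + N) →
        ∃ y ∈ S, dist y x ≤ s ∧ cellIdx e x s (3 * s / (N : ℝ) ^ (l + 1)) y = v := by
  classical
  have hC := h.C_pos
  have hN0 : (0 : ℝ) < N := by exact_mod_cast (by omega : 0 < N)
  have hN1 : (1 : ℝ) ≤ N := by exact_mod_cast (by omega : 1 ≤ N)
  set q := ((N : ℝ) ^ n - 1) / (N : ℝ) ^ n with hq
  have hq1 : q < 1 := by rw [hq, div_lt_one (by positivity)]; linarith
  have hq0 : 0 ≤ q := div_nonneg (by linarith [one_le_pow₀ hN1 (n := n)]) (by positivity)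
  set D := 3 * (n : ℝ) + 2 with hD
  have hD0 : 0 < D := by positivity
  obtain ⟨m, hm⟩ := exists_pow_lt_of_lt_one
    (show (0:ℝ) < 1 / (C ^ 2 * (6 * D) ^ n + 1) by positivity) hq1
  refine ⟨m, fun x hx s p W e hs hs0 he1 he2 hw => ?_⟩
  by_contra hfull
  push Not at hfull
  set cell : ℕ → X → Fin n → ℕ := fun l => cellIdx e x s (3 * s / (N : ℝ) ^ l) with hcell
  have hcoord : ∀ y, dist y x ≤ s → ∀ i, |⟪e i, y - x⟫| ≤ s := fun y hy i => by
    refine (abs_real_inner_le_norm _ _).trans ?_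
    rw [dist_eq_norm] at hy
    exact (mul_le_mul (he1 i) hy (norm_nonneg _) zero_le_one).trans_eq (one_mul s)
  have hcellN : ∀ l y, dist y x ≤ s → ∀ i, cell l y i < N ^ l := fun l y hy i => by
    have h1 := abs_le.1 (hcoord y hy i)
    refine (Nat.floor_lt (div_nonneg (by linarith) (by positivity))).2 ?_
    rw [div_lt_iff₀ (by positivity)]; push_cast
    rw [mul_div_cancel₀ _ (by positivity)]; linarith
  have hcellsucc : ∀ l y i, cell l y i = cell (l + 1) y i / N := fun l y i => by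
    simp only [hcell, cellIdx]
    rw [← Nat.floor_div_natCast]
    congr 1
    rw [pow_succ]; field_simp
  let Occ : ℕ → Finset (Fin n → ℕ) := fun l =>
    (Fintype.piFinset fun _ => Finset.range (N ^ l)).filter
      fun v => ∃ y ∈ S, dist y x ≤ s ∧ cell l y = v
  have hocc : ∀ l ≤ m, (Occ l).card ≤ (N ^ n - 1) ^ l := by
    intro l
    induction l with
    | zero => intro _; exact (Finset.card_filter_le _ _).trans (by simp)
    | succ l ih =>
      intro hl
      rw [pow_succ']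
      refine le_trans ?_ (Nat.mul_le_mul_left _ (ih (by omega)))
      refine Finset.card_le_mul_card_image_of_maps_to (f := fun v i => v i / N) (fun v hv => ?_) _
        fun b _ => ?_
      · obtain ⟨y, hy, hd, rfl⟩ := (Finset.mem_filter.1 hv).2
        refine Finset.mem_filter.2 ⟨Fintype.mem_piFinset.2 fun i => ?_, y, hy, hd, ?_⟩
        · rw [← hcellsucc l y i]; exact Finset.mem_range.2 (hcellN l y hd i)
        · funext i; exact hcellsucc l y i
      · set Box := Fintype.piFinset fun i => Finset.Ico (b i * N) (b i * N + N) with hBox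
        have hsub : (Occ (l + 1)).filter (fun v => (fun i => v i / N) = b) ⊆ Box := fun v hv => by
          obtain ⟨-, hv'⟩ := Finset.mem_filter.1 hv
          refine Fintype.mem_piFinset.2 fun i => Finset.mem_Ico.2 ?_
          have h1 : v i / N = b i := congrFun hv' i
          have h2 := Nat.div_add_mod' (v i) N
          have h3 := Nat.mod_lt (v i) (show 0 < N by omega)
          rw [h1] at h2
          omega
        obtain ⟨v, hv, hnot⟩ := hfull l (by omega) b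
        have hss := Finset.card_lt_card (Finset.ssubset_iff_subset_ne.2 ⟨hsub, fun heq => by
          have hmem : v ∈ Box := Fintype.mem_piFinset.2 fun i => Finset.mem_Ico.2 (hv i)
          rw [← heq] at hmem
          obtain ⟨y, hy, hd, hyv⟩ := (Finset.mem_filter.1 (Finset.mem_filter.1 hmem).1).2
          exact hnot y hy hd hyv⟩)
        have hcard : Box.card = N ^ n := by simp [hBox]
        omega
  set hm' := 3 * s / (N : ℝ) ^ m with hhm
  set ρ := D * hm' with hρ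
  have hρ0 : 0 < ρ := by positivity
  have hρs : ρ ≤ 3 * D * s := by
    rw [hρ, hhm, mul_div_assoc']
    exact (div_le_self (by positivity) (one_le_pow₀ hN1)).trans_eq (by ring)
  have hcen : ∀ v ∈ Occ m, ∃ y ∈ S, dist y x ≤ s ∧ cell m y = v := fun v hv =>
    (Finset.mem_filter.1 hv).2
  choose! ctr hctrS hctrd hctrv using hcen
  have hcov : ball x s ∩ S ⊆ ⋃ v ∈ Occ m, closedBall (ctr v) ρ := fun y hy => by
    have hd : dist y x ≤ s := le_of_lt hy.1
    have hmem : cell m y ∈ Occ m := Finset.mem_filter.2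
      ⟨Fintype.mem_piFinset.2 fun i => Finset.mem_range.2 (hcellN m y hd i), y, hy.2, hd, rfl⟩
    refine mem_iUnion₂.2 ⟨cell m y, hmem, ?_⟩
    obtain ⟨w, hwW, hwn⟩ := hw y hy.2 hd
    obtain ⟨v, hvW, hvn⟩ := hw _ (hctrS _ hmem) (hctrd _ hmem)
    have hc := hctrd _ hmem
    rw [mem_closedBall, dist_eq_norm]
    refine (close_of_coords he1 he2 hwW hvW hwn hvn (a := hm') fun i => ?_).trans_eq
      (by rw [hρ, hD]; ring)
    rw [show y - ctr (cell m y) = (y - x) - (ctr (cell m y) - x) by abel, inner_sub_right,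
      show ∀ a b : ℝ, a - b = (a + s) - (b + s) from fun a b => by ring]
    exact abs_sub_le_of_floor (by positivity) (by linarith [(abs_le.1 (hcoord y hd i)).1])
      (by linarith [(abs_le.1 (hcoord _ hc i)).1]) (congrFun (hctrv _ hmem) i).symm
  have hs1 : s ≤ r₀ := le_trans (le_mul_of_one_le_left hs.le (by rw [hD]; linarith [show (0:ℝ) ≤ n by positivity])) hs0
  have hbound : μ.real (ball x s) ≤ ((N : ℝ) ^ n - 1) ^ m * (C * (2 * ρ) ^ n) := by
    rw [show μ.real (ball x s) = μ.real (ball x s ∩ S) from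
      congrArg ENNReal.toReal (measure_inter_conull h.null).symm]
    refine (measureReal_mono hcov (ne_of_lt ((measure_biUnion_finset_le _ _).trans_lt
      (ENNReal.sum_lt_top.2 fun v _ => measure_closedBall_lt_top)))).trans ?_
    refine (measureReal_biUnion_finset_le _ _).trans ?_
    refine (Finset.sum_le_sum fun v hv => (measureReal_mono_ball
      (closedBall_subset_ball (by linarith : ρ < 2 * ρ))).trans
        (h.upper _ (hctrS v hv) _ (by linarith) (by linarith))).trans ?_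
    rw [Finset.sum_const, nsmul_eq_mul]
    refine mul_le_mul_of_nonneg_right ?_ (by positivity)
    have hcR : (((Occ m).card : ℕ) : ℝ) ≤ (((N ^ n - 1) ^ m : ℕ) : ℝ) := by exact_mod_cast hocc m le_rfl
    refine hcR.trans_eq ?_
    rw [Nat.cast_pow, Nat.cast_sub (Nat.one_le_pow n N (by omega))]
    push_cast; ring
  have hlow := (h.lower x hx s hs hs1).trans hbound
  have heq : ((N : ℝ) ^ n - 1) ^ m * (C * (2 * ρ) ^ n) = C * (q ^ m * (6 * D) ^ n) * s ^ n := by
    rw [hρ, hhm, hq, div_pow, ← pow_mul (N : ℝ), mul_comm n m, pow_mul,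
      show 2 * (D * (3 * s / (N : ℝ) ^ m)) = 6 * D * s / (N : ℝ) ^ m by ring, div_pow, mul_pow]
    ring
  rw [heq, div_le_iff₀ hC] at hlow
  have hone : 1 ≤ C * (q ^ m * (6 * D) ^ n) * C :=
    le_of_mul_le_mul_right (by linarith) (pow_pos hs n)
  rw [lt_div_iff₀ (by positivity)] at hm
  nlinarith [pow_nonneg hq0 m]

/-- A flat ball with a full cell contains a bilaterally flat ball. -/
lemma bilateral_of_full_cell {W : Submodule ℝ X} (hW : Module.finrank ℝ W ≤ n) {e : Fin n → X}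
    (he1 : ∀ i, ‖e i‖ ≤ 1) (he2 : ∀ w ∈ W, ‖w‖ ≤ ∑ i, |⟪e i, w⟫|)
    (he0 : ∀ i : Fin n, Module.finrank ℝ W ≤ (i : ℕ) → e i = 0) {p x : X} {s hh ε η : ℝ} {M : ℕ}
    (hh0 : 0 < hh) (hM : 4 ≤ M) (hMη : 2 * (2 * (n : ℝ) + 1) ≤ η * M)
    (hhs : (M : ℝ) * hh ≤ 2 * s) (hε : ε ≤ hh)
    (hse : ∀ y ∈ S, dist y x ≤ 2 * s → ∃ w ∈ W, ‖y - (p + w)‖ ≤ ε) {b : Fin n → ℕ}
    (hb : ∀ v : Fin n → ℕ, (∀ i, b i * (2 * M) ≤ v i ∧ v i < b i * (2 * M) + 2 * M) →
      ∃ y ∈ S, dist y x ≤ s ∧ cellIdx e x s hh y = v) :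
    ∃ x' ∈ S, dist x' x ≤ s ∧ Bilateral S n x' ((M : ℝ) * hh / 2) η := by
  have hs : 0 ≤ s := by nlinarith [show (0:ℝ) ≤ (M : ℝ) * hh by positivity]
  have hM4 : (4 : ℝ) ≤ M := by exact_mod_cast hM
  obtain ⟨x', hx', hxd', hxv⟩ := hb (fun i => b i * (2 * M) + M) fun i => ⟨by omega, by omega⟩
  set r' := (M : ℝ) * hh / 2 with hr'
  have hηr : (2 * (n : ℝ) + 1) * hh ≤ η * r' :=
    calc (2 * (n : ℝ) + 1) * hh = 2 * (2 * (n : ℝ) + 1) * hh / 2 := by ring
      _ ≤ η * (M : ℝ) * hh / 2 := by gcongr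
      _ = η * r' := by rw [hr']; ring
  refine ⟨x', hx', hxd', p, W, ?_, fun y hy hd => ?_, fun w hwW hd => ?_⟩
  · refine le_antisymm hW (not_lt.1 fun hlt => ?_)
    obtain ⟨y₁, -, -, h1⟩ := hb (fun j => b j * (2 * M)) fun j => ⟨le_rfl, by omega⟩
    have e1 := congrFun h1 ⟨Module.finrank ℝ W, hlt⟩
    have e2 := congrFun hxv ⟨Module.finrank ℝ W, hlt⟩
    simp only [cellIdx, he0 ⟨Module.finrank ℝ W, hlt⟩ le_rfl, inner_zero_left] at e1 e2
    omega
  · obtain ⟨w, hwW, hwn⟩ := hse y hy (by linarith [dist_triangle y x' x])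
    refine ⟨w, hwW, hwn.trans (hε.trans ((le_mul_of_one_le_left hh0.le ?_).trans hηr))⟩
    linarith [show (0:ℝ) ≤ n by positivity]
  · have hcx : ∀ y, dist y x ≤ s → ∀ i, 0 ≤ ⟪e i, y - x⟫ + s := fun y hy i => by
      have h2 := abs_le.1 (abs_real_inner_le_norm (e i) (y - x))
      rw [dist_eq_norm] at hy
      linarith [mul_le_of_le_one_left (norm_nonneg (y - x)) (he1 i)]
    set a : Fin n → ℝ := fun i => ⟪e i, p + w - x⟫ + s with ha
    have hab : ∀ i, ((b i * (2 * M) : ℕ) : ℝ) * hh ≤ a i ∧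
        a i < ((b i * (2 * M) + 2 * M : ℕ) : ℝ) * hh := fun i => by
      obtain ⟨f1, f2⟩ := (Nat.floor_eq_iff (div_nonneg (hcx x' hxd' i) hh0.le)).1 (congrFun hxv i)
      rw [le_div_iff₀ hh0] at f1
      rw [div_lt_iff₀ hh0] at f2
      have h2 := abs_le.1 (abs_real_inner_le_norm (e i) (p + w - x'))
      have h3 := mul_le_of_le_one_left (norm_nonneg (p + w - x')) (he1 i)
      rw [dist_eq_norm] at hd
      have h4 : a i = (⟪e i, x' - x⟫ + s) + ⟪e i, p + w - x'⟫ := by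
        simp only [ha, inner_sub_right]; ring
      have h5 : 4 * hh ≤ (M : ℝ) * hh := mul_le_mul_of_nonneg_right hM4 hh0.le
      rw [h4]
      push_cast at f1 f2 ⊢
      simp only [add_mul, one_mul] at f1 f2 ⊢
      constructor <;> linarith [h2.1, h2.2, mul_assoc (2:ℝ) (M : ℝ) hh]
    have ha0 : ∀ i, 0 ≤ a i := fun i => le_trans (by positivity) (hab i).1
    obtain ⟨y, hy, hyd, hyv⟩ := hb (fun i => ⌊a i / hh⌋₊) fun i =>
      ⟨Nat.le_floor (by rw [le_div_iff₀ hh0]; exact (hab i).1),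
        (Nat.floor_lt (div_nonneg (ha0 i) hh0.le)).2 (by rw [div_lt_iff₀ hh0]; exact (hab i).2)⟩
    obtain ⟨v, hvW, hvn⟩ := hse y hy (by linarith)
    refine ⟨y, hy, (close_of_coords he1 he2 hvW hwW hvn (u := p + w) (ε' := 0) (by simp) (a := hh)
      fun i => ?_).trans ?_⟩
    · rw [show y - (p + w) = (y - x) - (p + w - x) by abel, inner_sub_right,
        show ∀ a b : ℝ, a - b = (a + s) - (b + s) from fun a b => by ring]
      exact abs_sub_le_of_floor hh0 (hcx y hyd i) (ha0 i) (congrFun hyv i)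
    · refine le_trans ?_ hηr
      linarith [mul_le_mul_of_nonneg_left hε (show (0:ℝ) ≤ (n : ℝ) + 1 by positivity)]

/-- **Bilaterally flat balls at every location and scale.** -/
theorem Reg.exists_bilateral (h : Reg μ S n C r₀) (hT : Tested μ n Cb) {η : ℝ} (hη : 0 < η) :
    ∃ c : ℝ, 0 < c ∧ ∀ x₀ ∈ S, ∀ R, 0 < R → R ≤ r₀ →
      ∃ x ∈ S, ∃ r, c * R ≤ r ∧ r ≤ R ∧ dist x x₀ ≤ R ∧ Bilateral S n x r η := by
  obtain ⟨M₀, hM₀⟩ := exists_nat_gt (2 * (2 * (n : ℝ) + 1) / η)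
  set M := M₀ + 4 with hM
  have hMη : 2 * (2 * (n : ℝ) + 1) ≤ η * M := by
    rw [div_lt_iff₀ hη] at hM₀
    rw [hM]; push_cast; nlinarith
  obtain ⟨m, hfull⟩ := h.exists_full_cell (N := 2 * M) (by omega)
  set K : ℝ := ((2 * M : ℕ) : ℝ) ^ m with hK
  have hN1 : (1 : ℝ) ≤ ((2 * M : ℕ) : ℝ) := by exact_mod_cast (by omega : 1 ≤ 2 * M)
  have hK0 : 0 < K := by positivity
  obtain ⟨c, hc, hflat⟩ := h.exists_flat_uniform hT (show 0 < 3 / (2 * K) by positivity)
  set D := 3 * (n : ℝ) + 2 with hD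
  refine ⟨c * (M : ℝ) / (8 * D * K), by positivity, fun x₀ hx₀ R hR hR0 => ?_⟩
  set R' := R / (6 * D) with hR'
  have hD2 : 2 ≤ D := by rw [hD]; linarith [show (0:ℝ) ≤ n by positivity]
  have hR'R : 2 * R' ≤ R := by
    rw [hR', mul_div_assoc', div_le_iff₀ (by positivity)]; nlinarith
  obtain ⟨x, hx, r, hr, hrR, hxd, p, W, hW, hw⟩ :=
    hflat x₀ hx₀ R' (by positivity) (by linarith)
  have hr0 : 0 < r := (show 0 < c * R' by positivity).trans_le hr
  set s := r / 2 with hs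
  obtain ⟨e, he1, he2, he0⟩ := exists_coords hW
  have hse : ∀ y ∈ S, dist y x ≤ r → ∃ w ∈ W, ‖y - (p + w)‖ ≤ 3 * s / K := fun y hy hd => by
    obtain ⟨w, hwW, hwn⟩ := hw y hy hd
    exact ⟨w, hwW, hwn.trans_eq (by rw [hs]; field_simp)⟩
  obtain ⟨l, hl, b, hb⟩ := hfull x hx s p W e (by linarith)
    (by
      have : R' * (6 * D) = R := by rw [hR']; field_simp
      rw [hs]; nlinarith)
    he1 he2 fun y hy hd => hse y hy (by linarith)
  set hh := 3 * s / ((2 * M : ℕ) : ℝ) ^ (l + 1) with hhdef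
  have hh0 : 0 < hh := by positivity
  have hεh : 3 * s / K ≤ hh :=
    div_le_div_of_nonneg_left (by positivity) (by positivity) (pow_le_pow_right₀ hN1 hl)
  have hhs : (M : ℝ) * hh ≤ 3 / 2 * s := by
    rw [hhdef, mul_div_assoc', div_le_iff₀ (by positivity), pow_succ]
    push_cast at hN1 ⊢
    nlinarith [mul_le_mul_of_nonneg_left (one_le_pow₀ hN1 (n := l)) (show (0:ℝ) ≤ 3 * s * M by positivity)]
  obtain ⟨x', hx', hxd', hbil⟩ := bilateral_of_full_cell (ε := 3 * s / K) hW he1 he2 he0 hh0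
    (by omega : 4 ≤ M) hMη (by linarith) hεh (fun y hy hd => hse y hy (by linarith)) hb
  refine ⟨x', hx', _, ?_, by linarith, by linarith [dist_triangle x' x x₀], hbil⟩
  calc c * (M : ℝ) / (8 * D * K) * R = 3 / 4 * ((M : ℝ) * (c * R')) / K := by
        rw [hR']; field_simp; ring
    _ ≤ 3 / 4 * ((M : ℝ) * r) / K := by gcongr
    _ = (M : ℝ) * (3 * s / K) / 2 := by rw [hs]; ring
    _ ≤ _ := by gcongr

/-- Bilaterally flat balls contain fine chains. -/
theorem Reg.not_uniformly_disconnected (h : Reg μ S n C r₀) (hn : 1 ≤ n) (hT : Tested μ n Cb)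
    (hne : S.Nonempty) :
    ¬ ∃ δ : ℝ, 0 < δ ∧ NoFineChains S δ := by
  rintro ⟨δ, hδ, hch⟩
  obtain ⟨x₀, hx₀⟩ := hne
  set η := min (1 / 16) (δ / 32) with hη
  have hη0 : 0 < η := by positivity
  obtain ⟨c, hc, hb⟩ := h.exists_bilateral hT hη0
  obtain ⟨x, hx, r, hr, -, -, p, W, hW, h1, h2⟩ := hb x₀ hx₀ r₀ h.r_pos le_rfl
  have hr0 : 0 < r := (mul_pos hc h.r_pos).trans_le hr
  have : Nontrivial W := Module.nontrivial_of_finrank_pos (R := ℝ) (by omega)
  obtain ⟨v, hv⟩ := exists_ne (0 : W)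
  set u : X := ((‖v‖⁻¹ • v : W) : X) with hu
  have hu1 : ‖u‖ = 1 := by
    rw [hu, Submodule.norm_coe, norm_smul, norm_inv, norm_norm, inv_mul_cancel₀ (norm_ne_zero_iff.2 hv)]
  obtain ⟨w, hwW, hwn⟩ := h1 x hx (by simpa using hr0.le)
  obtain ⟨M, hM⟩ := exists_nat_gt (4 / δ)
  have hM0 : (0:ℝ) < M := (show (0:ℝ) < 4 / δ by positivity).trans hM
  set σ := r / (2 * M) with hσ
  have hMσ : (M : ℝ) * σ = r / 2 := by rw [hσ]; field_simp
  set P : ℕ → X := fun t => p + w + ((t : ℝ) * σ) • u with hP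
  have hη1 : η ≤ 1 / 16 := min_le_left _ _
  have hη2 : η ≤ δ / 32 := min_le_right _ _
  have hPd : ∀ t ≤ M, dist (p + (w + ((t : ℝ) * σ) • u)) x ≤ r := fun t ht => by
    rw [dist_eq_norm, show p + (w + ((t : ℝ) * σ) • u) - x = ((t : ℝ) * σ) • u - (x - (p + w)) by abel]
    refine (norm_sub_le _ _).trans ?_
    rw [norm_smul, hu1, mul_one, Real.norm_of_nonneg (by positivity)]
    have : (t : ℝ) * σ ≤ (M : ℝ) * σ := mul_le_mul_of_nonneg_right (by exact_mod_cast ht) (by positivity)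
    nlinarith [mul_le_mul_of_nonneg_right hη1 hr0.le]
  choose! y hyS hy using fun t (ht : t ≤ M) =>
    h2 (w + ((t : ℝ) * σ) • u) (W.add_mem hwW (W.smul_mem _ (Submodule.coe_mem _))) (hPd t ht)
  have hdiff : ∀ i ≤ M, ∀ j ≤ M, |‖y i - y j‖ - |(i : ℝ) - j| * σ| ≤ 2 * (η * r) := fun i hi j hj => by
    have e : (|(i : ℝ) - j| * σ) = ‖P i - P j‖ := by
      rw [hP, show p + w + ((i : ℝ) * σ) • u - (p + w + ((j : ℝ) * σ) • u) = (((i : ℝ) - j) * σ) • u by module,
        norm_smul, hu1, mul_one, Real.norm_eq_abs, abs_mul, abs_of_pos (show 0 < σ by positivity)]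
    rw [e]
    refine (abs_norm_sub_norm_le _ _).trans ?_
    rw [show (y i - y j) - (P i - P j) = (y i - (p + (w + ((i : ℝ) * σ) • u))) -
      (y j - (p + (w + ((j : ℝ) * σ) • u))) by simp only [hP]; abel]
    linarith [norm_sub_le (y i - (p + (w + ((i : ℝ) * σ) • u))) (y j - (p + (w + ((j : ℝ) * σ) • u))),
      hy i hi, hy j hj]
  have hlong := (abs_le.1 (hdiff 0 (Nat.zero_le _) M le_rfl)).1
  simp only [Nat.cast_zero, zero_sub, abs_neg, Nat.abs_cast, hMσ] at hlong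
  obtain ⟨i, hi, hlt⟩ := hch M y hyS fun heq => by
    rw [heq, sub_self, norm_zero] at hlong
    nlinarith [mul_le_mul_of_nonneg_right hη1 hr0.le]
  have hstep := (abs_le.1 (hdiff (i + 1) hi i hi.le)).2
  push_cast at hstep
  rw [show |(i : ℝ) + 1 - i| = 1 by norm_num] at hstep
  have hσδ : σ ≤ δ * r / 8 := by
    rw [hσ, div_le_iff₀ (by positivity)]
    rw [div_lt_iff₀ hδ] at hM
    nlinarith [mul_lt_mul_of_pos_right hM hr0]
  nlinarith [mul_le_mul_of_nonneg_left hlong hδ.le, mul_le_mul_of_nonneg_right hη2 hr0.le,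
    mul_le_mul_of_nonneg_left (mul_le_mul_of_nonneg_right hη1 hr0.le) hδ.le]

end

end Vale.Agent.P120.Flat
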