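import Vale.Agent.P120.Flat.Basic

/-!
Bounded annular Riesz integrals force balls that are flat of dimension `n`.
-/

set_option linter.unusedSectionVars false

open MeasureTheory Filter Topology Set Metric
open scoped RealInnerProductSpace

namespace Vale.Agent.P120.Flat

noncomputable section

variable {X : Type*} [NormedAddCommGroup X] [InnerProductSpace ℝ X] [FiniteDimensional ℝ X]
  [MeasurableSpace X] [BorelSpace X]

/-- The annular integrals at points of `S ∩ closedBall x₀ R` and scales in `[tR, R]` are at most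
`A`. -/
def AnnBdd (μ : Measure X) (S : Set X) (n : ℕ) (A : ℝ) (x₀ : X) (R t : ℝ) : Prop :=
  ∀ x ∈ S, dist x x₀ ≤ R → ∀ r ρ, t * R ≤ r → r ≤ ρ → ρ ≤ R →
    ‖∫ y in ann x r ρ, kern n (x - y) ∂μ‖ ≤ A

/-- `S ∩ closedBall x r` lies within `η r` of an affine subspace of dimension at most `k`. -/
def FlatIn (S : Set X) (k : ℕ) (x : X) (r η : ℝ) : Prop :=
  ∃ p : X, ∃ W : Submodule ℝ X, Module.finrank ℝ W ≤ k ∧
    ∀ y ∈ S, dist y x ≤ r → ∃ w ∈ W, ‖y - (p + w)‖ ≤ η * r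

variable {μ : Measure X} [IsLocallyFiniteMeasure μ] {S : Set X} {n : ℕ} {C r₀ : ℝ}

/-- An affine plane of dimension above `n` has a hole of comparable size. -/
lemma Reg.exists_hole (h : Reg μ S n C r₀) :
    ∃ c : ℝ, 0 < c ∧ c < 1 / 8 ∧ ∀ x₀ ∈ S, ∀ R, 0 < R → R ≤ r₀ → ∀ W : Submodule ℝ X,
      n < Module.finrank ℝ W → ∀ p' : X, ‖x₀ - p'‖ ≤ R / 8 →
      ∃ q, q - p' ∈ W ∧ ‖q - p'‖ ≤ R / 4 ∧ ∀ y ∈ S, c * R ≤ ‖y - q‖ := by
  have hC := h.C_pos
  obtain ⟨N, hN⟩ := exists_nat_gt (C ^ 2 * (16 * ((n : ℝ) + 1)) ^ n + 1)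
  have hN1 : (1:ℝ) < N := lt_of_le_of_lt (le_add_of_nonneg_left (by positivity)) hN
  have hN0 : (0:ℝ) < N := lt_trans one_pos hN1
  refine ⟨1 / (16 * ((n : ℝ) + 1) * N), by positivity, ?_, ?_⟩
  · gcongr
    nlinarith
  intro x₀ hx₀ R hR hR0 W hW p' hp'
  by_contra hcon
  push Not at hcon
  set σ := R / (4 * ((n : ℝ) + 1) * N) with hσ
  have hσ0 : 0 < σ := by positivity
  let b := stdOrthonormalBasis ℝ W
  let e : Fin (n + 1) → X := fun i => ((b (Fin.castLE hW i) : W) : X)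
  have heO : Orthonormal ℝ e :=
    (b.orthonormal.comp_linearIsometry W.subtypeₗᵢ).comp _ (Fin.castLE_injective hW)
  let q : (Fin (n + 1) → Fin N) → X := fun v => p' + ∑ i, (((v i : ℕ) : ℝ) * σ) • e i
  have hqW : ∀ v, q v - p' ∈ W := fun v => by
    simp only [q, add_sub_cancel_left]
    exact W.sum_mem fun i _ => W.smul_mem _ (Submodule.coe_mem _)
  have hqn : ∀ v, ‖q v - p'‖ ≤ R / 4 := fun v => by
    simp only [q, add_sub_cancel_left]
    refine (norm_sum_le _ _).trans ((Finset.sum_le_sum (g := fun _ => (N : ℝ) * σ)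
      fun i _ => ?_).trans ?_)
    · rw [norm_smul, heO.norm_eq_one, mul_one, Real.norm_of_nonneg (by positivity)]
      gcongr
      exact_mod_cast (v i).2.le
    · simp [hσ]; field_simp; norm_num
  choose y hyS hy using fun v => hcon (q v) (hqW v) (hqn v)
  have hcR : 1 / (16 * ((n : ℝ) + 1) * N) * R = σ / 4 := by rw [hσ]; field_simp; ring
  simp only [hcR] at hy
  have hsep : ∀ v v', v ≠ v' → σ ≤ ‖q v - q v'‖ := fun v v' hne => by
    obtain ⟨i, hi⟩ := Function.ne_iff.1 hne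
    have h1 : ⟪e i, q v - q v'⟫ = (((v i : ℕ) : ℝ) - ((v' i : ℕ) : ℝ)) * σ := by
      simp only [q, add_sub_add_left_eq_sub, inner_sub_right, heO.inner_right_fintype]
      ring
    have h2 := abs_real_inner_le_norm (e i) (q v - q v')
    rw [h1, heO.norm_eq_one, one_mul, abs_mul, abs_of_pos hσ0] at h2
    refine le_trans (le_mul_of_one_le_left hσ0.le ?_) h2
    have hne' : (v i : ℕ) ≠ (v' i : ℕ) := fun hh => hi (Fin.ext hh)
    rcases Nat.lt_or_gt_of_ne hne' with hlt | hlt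
    · have : ((v i : ℕ) : ℝ) + 1 ≤ ((v' i : ℕ) : ℝ) := by exact_mod_cast hlt
      rw [abs_of_nonpos (by linarith)]; linarith
    · have : ((v' i : ℕ) : ℝ) + 1 ≤ ((v i : ℕ) : ℝ) := by exact_mod_cast hlt
      rw [abs_of_nonneg (by linarith)]; linarith
  have hσR : σ ≤ R / 4 := by
    rw [hσ, div_le_div_iff₀ (by positivity) (by norm_num)]
    nlinarith [show (0:ℝ) ≤ n by positivity, mul_pos hR hN0,
      mul_le_mul_of_nonneg_left hN1.le hR.le]
  have hdisj : Pairwise (Function.onFun Disjoint fun v => ball (y v) (σ / 4)) := by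
    intro v v' hne
    refine ball_disjoint_ball ?_
    have h1 := hsep v v' hne
    have h2 : ‖q v - q v'‖ ≤ ‖y v - q v‖ + ‖y v - y v'‖ + ‖y v' - q v'‖ := by
      calc ‖q v - q v'‖ = ‖-(y v - q v) + (y v - y v') + (y v' - q v')‖ := by congr 1; abel
        _ ≤ _ := (norm_add₃_le).trans_eq (by rw [norm_neg])
    rw [dist_eq_norm]
    linarith [hy v, hy v']
  have hsub : ∀ v, ball (y v) (σ / 4) ⊆ ball x₀ R := fun v => by
    refine ball_subset_ball' ?_
    rw [dist_eq_norm]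
    have : ‖y v - x₀‖ ≤ ‖y v - q v‖ + ‖q v - p'‖ + ‖x₀ - p'‖ := by
      calc ‖y v - x₀‖ = ‖(y v - q v) + (q v - p') + -(x₀ - p')‖ := by congr 1; abel
        _ ≤ _ := (norm_add₃_le).trans_eq (by rw [norm_neg])
    linarith [hy v, hqn v]
  have hsum : ∑ v, μ.real (ball (y v) (σ / 4)) ≤ μ.real (ball x₀ R) := by
    rw [← measureReal_iUnion_fintype hdisj (fun v => measurableSet_ball)
      (fun v => measure_ball_lt_top.ne)]
    exact measureReal_mono_ball (iUnion_subset hsub)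
  have hlow : ((N : ℝ) ^ (n + 1)) * ((σ / 4) ^ n / C) ≤ C * R ^ n := by
    refine le_trans ?_ (hsum.trans (h.upper x₀ hx₀ R hR hR0))
    refine le_trans ?_ (Finset.sum_le_sum fun v _ =>
      h.lower (y v) (hyS v) (σ / 4) (by positivity) (by linarith))
    simp
  have hid : (N : ℝ) * (4 * ((n : ℝ) + 1)) * σ = R := by rw [hσ]; field_simp
  rw [mul_div_assoc', div_le_iff₀ hC] at hlow
  have : (N : ℝ) * ((N : ℝ) * σ) ^ n ≤ C ^ 2 * (16 * ((n : ℝ) + 1)) ^ n * ((N : ℝ) * σ) ^ n :=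
    calc (N : ℝ) * ((N : ℝ) * σ) ^ n = (N : ℝ) ^ (n + 1) * (σ / 4) ^ n * 4 ^ n := by
          rw [div_pow, mul_pow, pow_succ]; field_simp
      _ ≤ C * R ^ n * C * 4 ^ n := mul_le_mul_of_nonneg_right hlow (by positivity)
      _ = _ := by rw [← hid, mul_pow, mul_pow, mul_pow, mul_pow, mul_pow, show (16:ℝ) = 4 * 4 by
                    norm_num, mul_pow]; ring
  linarith [le_of_mul_le_mul_right this (by positivity)]

/-- One of `M` consecutive blocks carries at most the average of a nonnegative integral. -/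
lemma exists_small_block {z : X} {g : X → ℝ} (hg : ∀ r ρ, 0 < r → IntegrableOn g (ann z r ρ) μ)
    {θ ρ : ℝ} (hθ0 : 0 < θ) (hθ1 : θ ≤ 1) (hρ : 0 < ρ) :
    ∀ (M : ℕ) (β : ℝ), ∫ y in ann z (θ ^ M * ρ) ρ, g y ∂μ < M * β →
      ∃ j < M, ∫ y in ann z (θ ^ (j + 1) * ρ) (θ ^ j * ρ), g y ∂μ < β := by
  intro M
  induction M with
  | zero =>
    intro β hβ
    have he : ann z (θ ^ 0 * ρ) ρ = ∅ := eq_empty_of_forall_notMem fun y hy => by
      have := hy.1; have := hy.2; simp at *; linarith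
    rw [he] at hβ; simp at hβ
  | succ M ih =>
    intro β hβ
    have h1 : θ ^ (M + 1) * ρ ≤ θ ^ M * ρ := by
      exact mul_le_mul_of_nonneg_right (pow_le_pow_of_le_one hθ0.le hθ1 (Nat.le_succ M)) hρ.le
    have h2 : θ ^ M * ρ ≤ ρ := mul_le_of_le_one_left hρ.le (pow_le_one₀ hθ0.le hθ1)
    rw [setIntegral_ann_split h1 h2 (hg _ _ (by positivity))] at hβ
    by_cases hlast : ∫ y in ann z (θ ^ (M + 1) * ρ) (θ ^ M * ρ), g y ∂μ < β
    · exact ⟨M, Nat.lt_succ_self M, hlast⟩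
    · obtain ⟨j, hj, hj'⟩ := ih β (by push Not at hlast; push_cast at hβ; linarith)
      exact ⟨j, Nat.lt_succ_of_lt hj, hj'⟩

omit [FiniteDimensional ℝ X] [MeasurableSpace X] [BorelSpace X] in
lemma exterior_gap_nonneg {z q y : X} {a : ℝ} (ha : 0 < a) (hqz : ‖q - z‖ = a)
    (hy : a ≤ ‖y - q‖) :
    0 ≤ ‖y - z‖ ^ 2 / (2 * a) - ⟪a⁻¹ • (q - z), y - z⟫ := by
  have h1 : ‖(y - z) - (q - z)‖ ^ 2 = ‖y - z‖ ^ 2 - 2 * ⟪y - z, q - z⟫ + ‖q - z‖ ^ 2 :=
    norm_sub_sq_real _ _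
  rw [sub_sub_sub_cancel_right, hqz] at h1
  have h2 : a ^ 2 ≤ ‖y - q‖ ^ 2 := pow_le_pow_left₀ ha.le hy 2
  rw [real_inner_smul_left, real_inner_comm,
    show ‖y - z‖ ^ 2 / (2 * a) - a⁻¹ * ⟪y - z, q - z⟫ =
      (‖y - z‖ ^ 2 - 2 * ⟪y - z, q - z⟫) / (2 * a) by field_simp]
  exact div_nonneg (by linarith) (by positivity)

/-- A point far on the negative side of the normal direction carries a definite integral. -/
lemma Reg.mass_below (h : Reg μ S n C r₀) {z u y : X} {a σ top : ℝ} (ha0 : 0 < a)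
    (hσ0 : 0 < σ) (hσ2 : σ ≤ 1 / 2) (htop0 : 0 < top) (htopr : top ≤ r₀) (hu1 : ‖u‖ = 1)
    (hy : y ∈ S) (hd : ‖y - z‖ ≤ top / 2) (hlt : ⟪u, y - z⟫ < -(σ * (top / 2))) {g : X → ℝ}
    (hgeq : ∀ x, g x = (‖z - x‖ ^ (n + 1))⁻¹ * (‖x - z‖ ^ 2 / (2 * a) - ⟪u, x - z⟫))
    (hg0 : ∀ x ∈ S, 0 ≤ g x) (hgi : ∀ r ρ, 0 < r → IntegrableOn g (ann z r ρ) μ) :
    σ ^ (n + 1) / (C * 2 ^ (n + 1) * 2 ^ (n + 1)) ≤
      ∫ x in ann z (σ / 4 * top) top, g x ∂μ := by
  have hC := h.C_pos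
  set θ := σ / 4 with hθ
  set r := top / 2 with hr
  have hr0 : 0 < r := by positivity
  set β := σ ^ (n + 1) / (C * 2 ^ (n + 1) * 2 ^ (n + 1)) with hβ
  set s := σ * r with hs
  have hs0 : 0 < s := by positivity
  have hsr : s ≤ r / 2 := by rw [hs]; nlinarith
  have hfar : s < ‖y - z‖ := by
    have := abs_real_inner_le_norm u (y - z)
    rw [hu1, one_mul] at this
    linarith [neg_le_abs ⟪u, y - z⟫]
  have hsub : ball y (s / 2) ⊆ ann z (θ * top) top := fun x hx => by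
    rw [mem_ball, dist_eq_norm] at hx
    have h1 : ‖y - z‖ ≤ ‖x - y‖ + ‖z - x‖ := by
      calc ‖y - z‖ = ‖-(x - y) + -(z - x)‖ := by congr 1; abel
        _ ≤ _ := (norm_add_le _ _).trans_eq (by rw [norm_neg, norm_neg])
    have h2 : ‖z - x‖ ≤ ‖x - y‖ + ‖y - z‖ := by
      calc ‖z - x‖ = ‖-(x - y) + -(y - z)‖ := by congr 1; abel
        _ ≤ _ := (norm_add_le _ _).trans_eq (by rw [norm_neg, norm_neg])
    refine ⟨?_, by linarith⟩
    have : θ * top = s / 2 := by rw [hθ, hs, hr]; ring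
    linarith
  have hlow : ∀ᵐ x ∂μ.restrict (ball y (s / 2)), s / 2 * (top ^ (n + 1))⁻¹ ≤ g x := by
    refine (ae_restrict_mem measurableSet_ball).mono fun x hx => ?_
    have hxa := hsub hx
    rw [mem_ball, dist_eq_norm] at hx
    rw [hgeq, mul_comm]
    have hi : ⟪u, x - z⟫ ≤ -(s / 2) := by
      have := real_inner_le_norm u (x - y)
      rw [hu1, one_mul] at this
      have h3 : ⟪u, x - z⟫ = ⟪u, x - y⟫ + ⟪u, y - z⟫ := by
        rw [← inner_add_right, sub_add_sub_cancel]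
      linarith
    have h0 : 0 < ‖z - x‖ := lt_of_lt_of_le (by positivity) hxa.1
    have hpos : (0:ℝ) ≤ ‖x - z‖ ^ 2 / (2 * a) := by positivity
    exact mul_le_mul (inv_anti₀ (by positivity) (pow_le_pow_left₀ h0.le hxa.2.le _))
      (by linarith) (by positivity) (by positivity)
  have hI : μ.real (ball y (s / 2)) * (s / 2 * (top ^ (n + 1))⁻¹) ≤
      ∫ x in ann z (θ * top) top, g x ∂μ := by
    rw [← smul_eq_mul, ← setIntegral_const]
    refine le_trans (integral_mono_ae (integrableOn_const measure_ball_lt_top.ne)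
      ((hgi _ _ (by positivity)).mono_set hsub) hlow)
      (setIntegral_mono_set (hgi _ _ (by positivity)) ?_ hsub.eventuallyLE)
    exact ae_restrict_of_ae ((ae_iff.2 h.null : ∀ᵐ x ∂μ, x ∈ S).mono hg0)
  have hμy := h.lower y hy (s / 2) (by positivity) (by linarith)
  have : β ≤ μ.real (ball y (s / 2)) * (s / 2 * (top ^ (n + 1))⁻¹) := by
    refine le_trans (le_of_eq ?_) (mul_le_mul_of_nonneg_right hμy (by positivity))
    rw [hβ, hs, hr, show top ^ (n + 1) = top ^ n * top from pow_succ _ _, div_pow, mul_pow,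
      div_pow, pow_succ σ, pow_succ (2:ℝ)]
    field_simp
  exact this.trans hI

/-- Near a touching point of an exterior ball, bounded annular integrals give a scale at which
the set is nearly orthogonal to the normal direction. -/
lemma Reg.touch (h : Reg μ S n C r₀) {A c σ : ℝ} (hA : 0 ≤ A) (hc0 : 0 < c) (hc8 : c < 1 / 8)
    (hσ0 : 0 < σ) (hσ2 : σ ≤ 1 / 2) {M : ℕ}
    (hM : A + C * 2 ^ (n + 2) / (2 * c) <
      M * (σ ^ (n + 1) / (C * 2 ^ (n + 1) * 2 ^ (n + 1))))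
    {z q : X} {a R : ℝ} (hR : 0 < R) (hR0 : R ≤ r₀) (hzS : z ∈ S) (ha : a = ‖q - z‖)
    (hca : c * R ≤ a) (haS : ∀ y ∈ S, a ≤ ‖y - q‖)
    (hP : ∀ r ρ, (σ / 4) ^ M * (c * σ) * R ≤ r → r ≤ ρ → ρ ≤ R →
      ‖∫ y in ann z r ρ, kern n (z - y) ∂μ‖ ≤ A) :
    ∃ r, (σ / 4) ^ M * (c * σ) / 2 * R ≤ r ∧ r ≤ R / 8 ∧
      ∀ y ∈ S, dist y z ≤ r → |⟪a⁻¹ • (q - z), y - z⟫| ≤ σ * r := by
  have hC := h.C_pos
  have ha0 : 0 < a := lt_of_lt_of_le (by positivity) hca
  set θ := σ / 4 with hθ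
  have hθ0 : 0 < θ := by positivity
  have hθ1 : θ ≤ 1 := by linarith
  set κ := c * σ with hκ
  have hκ0 : 0 < κ := by positivity
  have hκ8 : κ ≤ 1 / 8 := by
    have : c * σ ≤ c * 1 := mul_le_mul_of_nonneg_left (by linarith) hc0.le
    linarith
  set A' := A + C * 2 ^ (n + 2) / (2 * c) with hA'
  set β := σ ^ (n + 1) / (C * 2 ^ (n + 1) * 2 ^ (n + 1)) with hβ
  set u := a⁻¹ • (q - z) with hu
  have hu1 : ‖u‖ = 1 := by
    rw [hu, norm_smul, norm_inv, Real.norm_of_nonneg ha0.le, ← ha, inv_mul_cancel₀ ha0.ne']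
  let g : X → ℝ := fun y =>
    ‖z - y‖ ^ 2 * (‖z - y‖ ^ (n + 1))⁻¹ / (2 * a) + ⟪u, kern n (z - y)⟫
  have hgeq : ∀ y, g y = (‖z - y‖ ^ (n + 1))⁻¹ * (‖y - z‖ ^ 2 / (2 * a) - ⟪u, y - z⟫) :=
    fun y => by
      simp only [g, kern, real_inner_smul_right]
      rw [norm_sub_rev y z, show ⟪u, z - y⟫ = -⟪u, y - z⟫ by rw [← inner_neg_right, neg_sub]]
      ring
  have hg0 : ∀ y ∈ S, 0 ≤ g y := fun y hy => by
    rw [hgeq]; exact mul_nonneg (by positivity) (exterior_gap_nonneg ha0 ha.symm (haS y hy))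
  have hwi : ∀ r ρ, 0 < r → IntegrableOn
      (fun y => ‖z - y‖ ^ 2 * (‖z - y‖ ^ (n + 1))⁻¹) (ann z r ρ) μ := fun r ρ hr =>
    integrableOn_ann (stronglyMeasurable_wt z _) fun y hy => wt_le _ hr hy
  have hki : ∀ r ρ, 0 < r → IntegrableOn (fun y => ⟪u, kern n (z - y)⟫) (ann z r ρ) μ :=
    fun r ρ hr => (integrableOn_kern z ρ hr).const_inner u
  have hgi : ∀ r ρ, 0 < r → IntegrableOn g (ann z r ρ) μ := fun r ρ hr =>
    ((hwi r ρ hr).div_const _).add (hki r ρ hr)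
  set ρ₀ := κ * R with hρ₀
  have hρ₀0 : 0 < ρ₀ := by positivity
  have hρ₀R : ρ₀ ≤ R / 8 := by nlinarith
  have htot : ∫ y in ann z (θ ^ M * ρ₀) ρ₀, g y ∂μ ≤ A' := by
    have hr : 0 < θ ^ M * ρ₀ := by positivity
    rw [show (fun y => g y) = fun y =>
      ‖z - y‖ ^ 2 * (‖z - y‖ ^ (n + 1))⁻¹ / (2 * a) + ⟪u, kern n (z - y)⟫ from rfl,
      integral_add ((hwi _ _ hr).div_const _) (hki _ _ hr), integral_div,
      integral_inner (integrableOn_kern z _ hr)]
    have e1 := h.ann_wt_le hzS hr hρ₀0 (by linarith)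
    have e2 : ⟪u, ∫ y in ann z (θ ^ M * ρ₀) ρ₀, kern n (z - y) ∂μ⟫ ≤ A := by
      refine (real_inner_le_norm _ _).trans ?_
      rw [hu1, one_mul]
      refine hP _ _ ?_
        (mul_le_of_le_one_left hρ₀0.le (pow_le_one₀ hθ0.le hθ1)) (by linarith)
      rw [hρ₀, mul_assoc]
    have e3 : (∫ y in ann z (θ ^ M * ρ₀) ρ₀,
        ‖z - y‖ ^ 2 * (‖z - y‖ ^ (n + 1))⁻¹ ∂μ) / (2 * a) ≤ C * 2 ^ (n + 2) / (2 * c) := by
      rw [div_le_div_iff₀ (by positivity) (by positivity)]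
      refine (mul_le_mul_of_nonneg_right e1 (by positivity)).trans ?_
      have : ρ₀ * c ≤ a := le_trans (by nlinarith) hca
      nlinarith [mul_le_mul_of_nonneg_left this (show 0 ≤ C * 2 ^ (n + 2) by positivity)]
    linarith
  obtain ⟨j, hjM, hj⟩ :=
    exists_small_block hgi hθ0 hθ1 hρ₀0 M β (lt_of_le_of_lt htot hM)
  set top := θ ^ j * ρ₀ with htop
  have htop0 : 0 < top := by positivity
  have htop1 : top ≤ ρ₀ := mul_le_of_le_one_left hρ₀0.le (pow_le_one₀ hθ0.le hθ1)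
  rw [show θ ^ (j + 1) * ρ₀ = θ * top by rw [htop, pow_succ]; ring] at hj
  set r := top / 2 with hr
  have hr0 : 0 < r := by positivity
  have hrR : r ≤ R / 8 := by linarith
  have hrt : θ ^ M * κ / 2 * R ≤ r := by
    rw [hr, htop, hρ₀]
    have : θ ^ M ≤ θ ^ j := pow_le_pow_of_le_one hθ0.le hθ1 hjM.le
    have := mul_le_mul_of_nonneg_right this (show 0 ≤ κ * R / 2 by positivity)
    linarith
  have hmain : ∀ y ∈ S, dist y z ≤ r → |⟪u, y - z⟫| ≤ σ * r := by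
    intro y hy hd
    rw [dist_eq_norm] at hd
    refine abs_le.2 ⟨?_, ?_⟩
    · by_contra hlt
      push Not at hlt
      exact absurd (h.mass_below ha0 hσ0 hσ2 htop0 (by linarith) hu1 hy hd hlt hgeq hg0 hgi)
        (not_le.2 hj)
    · have h1 := exterior_gap_nonneg ha0 ha.symm (haS y hy)
      rw [← hu] at h1
      have h2 : ‖y - z‖ ^ 2 / (2 * a) ≤ σ * r := by
        rw [div_le_iff₀ (by positivity)]
        have h3 : ‖y - z‖ ^ 2 ≤ r * r := by nlinarith [norm_nonneg (y - z)]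
        have h4 : r ≤ σ * a := by
          have : r ≤ κ * R := by linarith
          rw [hκ] at this
          calc r ≤ c * σ * R := this
            _ = σ * (c * R) := by ring
            _ ≤ σ * a := by gcongr
        nlinarith [mul_le_mul_of_nonneg_left h4 hr0.le, show 0 ≤ σ * r * a by positivity]
      linarith
  exact ⟨r, hrt, hrR, hmain⟩

/-- The plane cut down by the normal direction. -/
lemma flat_cut {k : ℕ} {p q z w₀ x₀ : X} {W : Submodule ℝ X} {R r τ τ' σ c a : ℝ}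
    (hW : Module.finrank ℝ W ≤ k + 1) (hR : 0 < R) (hw₀W : w₀ ∈ W) (hqW : q - (p + w₀) ∈ W)
    (hw : ∀ y ∈ S, dist y x₀ ≤ R → ∃ w ∈ W, ‖y - (p + w)‖ ≤ τ * R)
    (hzS : z ∈ S) (hzd : dist z x₀ ≤ R) (hball : ∀ y, dist y z ≤ r → dist y x₀ ≤ R)
    (ha : a = ‖q - z‖) (hca : c * R ≤ a) (hc0 : 0 < c) (hτ0 : 0 ≤ τ) (hτc : τ ≤ c / 8)
    (hr0 : 0 < r) (hrR : r ≤ R) (hσr : τ * (4 + 4 / c) * R ≤ σ * r) (hστ : 2 * σ ≤ τ')
    (hmain : ∀ y ∈ S, dist y z ≤ r → |⟪a⁻¹ • (q - z), y - z⟫| ≤ σ * r) :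
    FlatIn S k z r τ' := by
  have ha0 : 0 < a := lt_of_lt_of_le (by positivity) hca
  set u := a⁻¹ • (q - z) with hu
  have hu1 : ‖u‖ = 1 := by
    rw [hu, norm_smul, norm_inv, Real.norm_of_nonneg ha0.le, ← ha, inv_mul_cancel₀ ha0.ne']
  -- the new plane
  obtain ⟨wz, hwzW, hwz⟩ := hw z hzS hzd
  set v := (q - p) - wz with hv
  have hvW : v ∈ W := by
    refine W.sub_mem ?_ hwzW
    rw [show q - p = (q - (p + w₀)) + w₀ by abel]
    exact W.add_mem hqW hw₀W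
  have hvqz : ‖v - (q - z)‖ ≤ τ * R := by
    rw [show v - (q - z) = z - (p + wz) by rw [hv]; abel]; exact hwz
  have hvn : a / 2 ≤ ‖v‖ := by
    have := norm_sub_norm_le (q - z) v
    rw [← ha, norm_sub_rev (q - z) v] at this
    nlinarith
  have hv0 : 0 < ‖v‖ := by linarith
  set u' := ‖v‖⁻¹ • v with hu'
  have hu'1 : ‖u'‖ = 1 := by
    rw [hu', norm_smul, norm_inv, norm_norm, inv_mul_cancel₀ hv0.ne']
  have huu : ‖u' - u‖ ≤ 2 * τ / c := by
    have heq : u' - u = a⁻¹ • (v - (q - z)) + ((a - ‖v‖) / a) • u' := by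
      have h1 : ((a - ‖v‖) / a) • u' = u' - a⁻¹ • v := by
        rw [sub_div, div_self ha0.ne', sub_smul, one_smul, hu', smul_smul,
          show ‖v‖ / a * ‖v‖⁻¹ = a⁻¹ by field_simp]
      rw [h1, hu, smul_sub a⁻¹ v]
      abel
    rw [heq]
    refine (norm_add_le _ _).trans ?_
    rw [norm_smul, norm_smul, hu'1, mul_one, norm_inv, norm_div, Real.norm_of_nonneg ha0.le,
      Real.norm_eq_abs]
    have h5 : |a - ‖v‖| ≤ τ * R := by
      rw [abs_sub_comm, ha]; exact (abs_norm_sub_norm_le v (q - z)).trans hvqz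
    refine le_trans (add_le_add (mul_le_mul_of_nonneg_left hvqz (by positivity))
      (div_le_div_of_nonneg_right h5 ha0.le)) ?_
    rw [show a⁻¹ * (τ * R) + τ * R / a = 2 * (τ * R) / a by ring,
      div_le_div_iff₀ ha0 hc0]
    nlinarith
  set W' := W ⊓ (Submodule.span ℝ {u'})ᗮ with hW'
  have hu'W : u' ∈ W := W.smul_mem _ hvW
  have hW'k : Module.finrank ℝ W' ≤ k := by
    have hlt : W' < W := lt_of_le_of_ne inf_le_left fun heq => by
      have hmem : u' ∈ W' := heq ▸ hu'W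
      have := Submodule.mem_orthogonal_singleton_iff_inner_right.1 hmem.2
      rw [real_inner_self_eq_norm_sq, hu'1] at this
      norm_num at this
    have := Submodule.finrank_lt_finrank_of_lt hlt
    omega
  exact ⟨z, W', hW'k, fun y hy hd => by
      obtain ⟨wy, hwyW, hwy⟩ := hw y hy (hball y hd)
      set d := wy - wz with hd'
      refine ⟨d - ⟪u', d⟫ • u', ⟨W.sub_mem (W.sub_mem hwyW hwzW) (W.smul_mem _ hu'W), ?_⟩, ?_⟩
      · refine Submodule.mem_orthogonal_singleton_iff_inner_right.2 ?_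
        rw [inner_sub_right, real_inner_smul_right, real_inner_self_eq_norm_sq, hu'1]; ring
      have he : ‖(y - z) - d‖ ≤ 2 * (τ * R) := by
        calc ‖(y - z) - d‖ = ‖(y - (p + wy)) + -(z - (p + wz))‖ := by congr 1; rw [hd']; abel
          _ ≤ _ := (norm_add_le _ _).trans (by rw [norm_neg]; linarith)
      rw [show y - (z + (d - ⟪u', d⟫ • u')) = ((y - z) - d) + ⟪u', d⟫ • u' by abel]
      refine (norm_add_le _ _).trans ?_
      rw [norm_smul, hu'1, mul_one, Real.norm_eq_abs]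
      have hd1 : |⟪u', d⟫| ≤ σ * r + 2 * τ / c * R + 2 * (τ * R) := by
        have hs : ⟪u', d⟫ = ⟪u, y - z⟫ + ⟪u' - u, y - z⟫ - ⟪u', (y - z) - d⟫ := by
          simp only [inner_sub_left, inner_sub_right]; ring
        rw [hs]
        refine (abs_sub _ _).trans (add_le_add ((abs_add_le _ _).trans
          (add_le_add (hmain y hy hd) ?_)) ?_)
        · refine (abs_real_inner_le_norm _ _).trans (mul_le_mul huu ?_ (norm_nonneg _)
            (by positivity))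
          rw [← dist_eq_norm]; linarith
        · refine (abs_real_inner_le_norm _ _).trans ?_
          rw [hu'1, one_mul]; exact he
      have h6 := hσr
      have h7 : 0 ≤ 2 * τ / c * R := by positivity
      have h8 : 2 * σ * r ≤ τ' * r := by gcongr
      rw [show τ * (4 + 4 / c) * R = 4 * (τ * R) + 2 * (2 * τ / c * R) by ring] at h6
      linarith⟩

/-- The descent: bounded annular integrals on a nearly `k`-flat ball give an `n`-flat ball. -/
theorem Reg.descent (h : Reg μ S n C r₀) {A : ℝ} (hA : 0 ≤ A) (k : ℕ) :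
    ∀ η : ℝ, 0 < η → ∃ τ t : ℝ, 0 < τ ∧ 0 < t ∧ t ≤ 1 ∧ ∀ x₀ ∈ S, ∀ R, 0 < R → R ≤ r₀ →
      AnnBdd μ S n A x₀ R t → FlatIn S k x₀ R τ →
      ∃ x ∈ S, ∃ r, t * R ≤ r ∧ r ≤ R ∧ dist x x₀ ≤ R ∧ FlatIn S n x r η := by
  have hC := h.C_pos
  induction k with
  | zero =>
    intro η hη
    refine ⟨η, 1, hη, one_pos, le_rfl, fun x₀ hx₀ R hR _ _ hF => ?_⟩
    obtain ⟨p, W, hW, hw⟩ := hF
    exact ⟨x₀, hx₀, R, (one_mul R).le, le_rfl, by simp [hR.le], p, W, hW.trans (Nat.zero_le n), hw⟩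
  | succ k ih =>
    intro η hη
    rcases Nat.lt_or_ge n (k + 1) with hnk | hnk
    swap
    · refine ⟨η, 1, hη, one_pos, le_rfl, fun x₀ hx₀ R hR _ _ hF => ?_⟩
      obtain ⟨p, W, hW, hw⟩ := hF
      exact ⟨x₀, hx₀, R, (one_mul R).le, le_rfl, by simp [hR.le], p, W, hW.trans hnk, hw⟩
    obtain ⟨τ', t', hτ'0, ht'0, ht'1, hdesc⟩ := ih η hη
    obtain ⟨c, hc0, hc8, hhole⟩ := h.exists_hole
    set σ := min (τ' / 2) (1 / 2) with hσ
    have hσ0 : 0 < σ := lt_min (by linarith) (by norm_num)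
    have hσ2 : σ ≤ 1 / 2 := min_le_right _ _
    have hστ : 2 * σ ≤ τ' := by have := min_le_left (τ' / 2) (1 / 2 : ℝ); rw [← hσ] at this; linarith
    set θ := σ / 4 with hθ
    have hθ0 : 0 < θ := by positivity
    have hθ1 : θ ≤ 1 := by linarith
    set κ := c * σ with hκ
    have hκ0 : 0 < κ := by positivity
    have hκ8 : κ ≤ 1 / 8 := by
      have : c * σ ≤ c * 1 := mul_le_mul_of_nonneg_left (by linarith) hc0.le
      linarith
    set A' := A + C * 2 ^ (n + 2) / (2 * c) with hA'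
    set β := σ ^ (n + 1) / (C * 2 ^ (n + 1) * 2 ^ (n + 1)) with hβ
    have hA'0 : 0 ≤ A' := by positivity
    have hβ0 : 0 < β := by positivity
    obtain ⟨M, hM⟩ := exists_nat_gt (A' / β)
    rw [div_lt_iff₀ hβ0] at hM
    set t₀ := θ ^ M * κ / 2 with ht₀
    have ht₀0 : 0 < t₀ := by positivity
    set τ := min (min τ' (c / 8)) (σ * t₀ / (4 + 4 / c)) with hτdef
    have hτ0 : 0 < τ := lt_min (lt_min hτ'0 (by linarith)) (by positivity)
    have hττ : τ ≤ τ' := (min_le_left _ _).trans (min_le_left _ _)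
    have hτc : τ ≤ c / 8 := (min_le_left _ _).trans (min_le_right _ _)
    have hτt : τ * (4 + 4 / c) ≤ σ * t₀ := by
      rw [← le_div_iff₀ (by positivity)]; exact min_le_right _ _
    have ht₀1 : t₀ ≤ 1 := by
      have : θ ^ M * κ ≤ 1 * 1 := mul_le_mul (pow_le_one₀ hθ0.le hθ1) (by linarith) hκ0.le zero_le_one
      rw [ht₀]; linarith
    refine ⟨τ, t' * t₀, hτ0, mul_pos ht'0 ht₀0, mul_le_one₀ ht'1 ht₀0.le ht₀1,
      fun x₀ hx₀ R hR hR0 hP hF => ?_⟩
    obtain ⟨p, W, hW, hw⟩ := hF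
    rcases Nat.lt_or_ge n (Module.finrank ℝ W) with hbig | hsmall
    swap
    · -- already low-dimensional
      obtain ⟨x, hxS, r', hr', hrest⟩ := hdesc x₀ hx₀ R hR hR0 (fun x hx hd r ρ hr => hP x hx hd r ρ
        (le_trans (by gcongr; exact mul_le_of_le_one_right ht'0.le ht₀1) hr)) ⟨p, W, by omega,
        fun y hy hd => (hw y hy hd).imp fun w hw' => ⟨hw'.1, hw'.2.trans (by gcongr)⟩⟩
      exact ⟨x, hxS, r', le_trans (by gcongr; exact mul_le_of_le_one_right ht'0.le ht₀1) hr', hrest⟩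
    obtain ⟨w₀, hw₀W, hw₀⟩ := hw x₀ hx₀ (by simp [hR.le])
    have hτR : τ * R ≤ R / 64 := by nlinarith
    obtain ⟨q, hqW, hqn, hqS⟩ := hhole x₀ hx₀ R hR hR0 W hbig (p + w₀) (by linarith)
    obtain ⟨z, hzS, hzd⟩ := h.closed.exists_infDist_eq_dist ⟨x₀, hx₀⟩ q
    set a := ‖q - z‖ with ha
    have haS : ∀ y ∈ S, a ≤ ‖y - q‖ := fun y hy => by
      rw [ha, ← dist_eq_norm, ← hzd, norm_sub_rev, ← dist_eq_norm]
      exact infDist_le_dist_of_mem hy
    have hca : c * R ≤ a := by rw [ha, norm_sub_rev]; exact hqS z hzS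
    have ha0 : 0 < a := lt_of_lt_of_le (by positivity) hca
    have hax : a ≤ R / 4 + τ * R := by
      have := haS x₀ hx₀
      have h2 : ‖x₀ - q‖ ≤ ‖x₀ - (p + w₀)‖ + ‖q - (p + w₀)‖ := by
        calc ‖x₀ - q‖ = ‖(x₀ - (p + w₀)) + -(q - (p + w₀))‖ := by congr 1; abel
          _ ≤ _ := (norm_add_le _ _).trans_eq (by rw [norm_neg])
      linarith
    have hzx : dist z x₀ ≤ R / 2 + 2 * (τ * R) := by
      rw [dist_eq_norm]
      calc ‖z - x₀‖ = ‖-(q - z) + (q - (p + w₀)) + -(x₀ - (p + w₀))‖ := by congr 1; abel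
        _ ≤ a + ‖q - (p + w₀)‖ + ‖x₀ - (p + w₀)‖ := (norm_add₃_le).trans_eq (by rw [norm_neg, norm_neg])
        _ ≤ _ := by linarith
    obtain ⟨r, hrt, hrR, hmain⟩ := h.touch hA hc0 hc8 hσ0 hσ2 hM hR hR0 hzS ha hca haS
      (fun r₁ ρ₁ h1 h2 h3 => hP z hzS (by linarith) r₁ ρ₁ (le_trans (by
        rw [ht₀]
        have : t' * (θ ^ M * κ / 2) ≤ θ ^ M * κ := by
          nlinarith [show 0 < θ ^ M * κ by positivity]
        exact mul_le_mul_of_nonneg_right this hR.le) h1) h2 h3)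
    have hr0 : 0 < r := lt_of_lt_of_le (by positivity) hrt
    have hball : ∀ y, dist y z ≤ r → dist y x₀ ≤ R := fun y hy =>
      (dist_triangle y z x₀).trans (by linarith)
    obtain ⟨x, hxS, r', hr'0, hr'r, hxd, hflat⟩ := hdesc z hzS r hr0 (by linarith)
      (fun x hx hd r₁ ρ₁ h1 h2 h3 => hP x hx (hball x hd) r₁ ρ₁
        (le_trans (by rw [mul_assoc]; exact mul_le_mul_of_nonneg_left hrt ht'0.le) h1) h2
        (by linarith))
      (flat_cut hW hR hw₀W hqW hw hzS (by linarith) hball ha hca hc0 hτ0.le hτc hr0 (by linarith)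
        (calc τ * (4 + 4 / c) * R ≤ σ * t₀ * R := mul_le_mul_of_nonneg_right hτt hR.le
          _ = σ * (t₀ * R) := by ring
          _ ≤ σ * r := mul_le_mul_of_nonneg_left hrt hσ0.le) hστ hmain)
    exact ⟨x, hxS, r', le_trans (le_trans (le_of_eq (mul_assoc _ _ _)) (mul_le_mul_of_nonneg_left hrt ht'0.le)) hr'0, by linarith, (dist_triangle x z x₀).trans (by linarith), hflat⟩

end

end Vale.Agent.P120.Flat
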