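import Vale.Agent.P120.Flat.Limit

/-!
Shifted nested grids and the gain of energy between two levels of averages.
-/

set_option linter.unusedSectionVars false

open MeasureTheory Filter Topology Set Metric
open scoped RealInnerProductSpace

namespace Vale.Agent.P120.Flat

noncomputable section

/-! ### finite algebra -/

section algebra
variable {α E : Type*} [NormedAddCommGroup E] [InnerProductSpace ℝ E]
variable {s s' : Finset α} {m : α → ℝ} {I : α → E}

/-- Energy of a finite family of averages. -/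
def nrg (s : Finset α) (m : α → ℝ) (I : α → E) : ℝ := ∑ z ∈ s, ‖I z‖ ^ 2 / m z

/-- The deviation from the common mean is the gain of energy. -/
lemma deviation_eq (hm : ∀ z ∈ s, 0 ≤ m z) (h0 : ∀ z ∈ s, m z = 0 → I z = 0) :
    ∑ z ∈ s, m z * ‖(m z)⁻¹ • I z - (∑ z ∈ s, m z)⁻¹ • ∑ z ∈ s, I z‖ ^ 2 =
      nrg s m I - ‖∑ z ∈ s, I z‖ ^ 2 / ∑ z ∈ s, m z := by
  set M := ∑ z ∈ s, m z with hM
  set J := ∑ z ∈ s, I z with hJ
  have e : ∀ z ∈ s, m z * ‖(m z)⁻¹ • I z - M⁻¹ • J‖ ^ 2 =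
      ‖I z‖ ^ 2 / m z - 2 * M⁻¹ * ⟪I z, J⟫ + M⁻¹ ^ 2 * ‖J‖ ^ 2 * m z := fun z hz => by
    rcases eq_or_ne (m z) 0 with h | h
    · simp [h, h0 z hz h]
    · rw [norm_sub_sq_real, norm_smul, norm_smul, real_inner_smul_left, real_inner_smul_right,
        mul_pow, mul_pow, Real.norm_eq_abs, Real.norm_eq_abs, sq_abs, sq_abs]
      field_simp
  rw [Finset.sum_congr rfl e, Finset.sum_add_distrib, Finset.sum_sub_distrib, ← Finset.mul_sum,
    ← Finset.mul_sum, ← sum_inner, ← hM, ← hJ, real_inner_self_eq_norm_sq, nrg]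
  rcases eq_or_ne M 0 with h | h
  · simp [h]
  · field_simp
    ring

lemma gain_nonneg (hm : ∀ z ∈ s, 0 ≤ m z) (h0 : ∀ z ∈ s, m z = 0 → I z = 0) :
    0 ≤ nrg s m I - ‖∑ z ∈ s, I z‖ ^ 2 / ∑ z ∈ s, m z := by
  rw [← deviation_eq hm h0]
  exact Finset.sum_nonneg fun z hz => mul_nonneg (hm z hz) (sq_nonneg _)

/-- A partial sum is close to its share of the common mean. -/
lemma partial_near (hm : ∀ z ∈ s, 0 ≤ m z) (h0 : ∀ z ∈ s, m z = 0 → I z = 0) (hs : s' ⊆ s) :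
    2 * ‖(∑ z ∈ s', I z) - (∑ z ∈ s', m z) • ((∑ z ∈ s, m z)⁻¹ • ∑ z ∈ s, I z)‖ ≤
      (∑ z ∈ s', m z) + (nrg s m I - ‖∑ z ∈ s, I z‖ ^ 2 / ∑ z ∈ s, m z) := by
  rw [← deviation_eq hm h0]
  set v := (∑ z ∈ s, m z)⁻¹ • ∑ z ∈ s, I z
  rw [Finset.sum_smul, ← Finset.sum_sub_distrib]
  refine (mul_le_mul_of_nonneg_left (norm_sum_le _ _) zero_le_two).trans ?_
  rw [Finset.mul_sum]
  refine le_trans ?_ (add_le_add le_rfl (Finset.sum_le_sum_of_subset_of_nonneg hs
    fun z hz _ => mul_nonneg (hm z hz) (sq_nonneg _)))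
  rw [← Finset.sum_add_distrib]
  refine Finset.sum_le_sum fun z hz => ?_
  rcases eq_or_ne (m z) 0 with h | h
  · simp [h, h0 z (hs hz) h]
  have e : I z - m z • v = m z • ((m z)⁻¹ • I z - v) := by
    rw [smul_sub, smul_inv_smul₀ h]
  rw [e, norm_smul, Real.norm_of_nonneg (hm z (hs hz))]
  nlinarith [mul_nonneg (hm z (hs hz)) (sq_nonneg (‖(m z)⁻¹ • I z - v‖ - 1))]

end algebra

/-! ### grids -/

variable {X : Type*} [NormedAddCommGroup X] [InnerProductSpace ℝ X] [FiniteDimensional ℝ X]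
  [MeasurableSpace X] [BorelSpace X]
variable {D : ℕ} (e : OrthonormalBasis (Fin D) ℝ X) (x₀ : X) (L : ℝ)

/-- Cell of `x` in the grid with shift `i` at level `k`. -/
def gcell (i k : ℕ) (x : X) : Fin D → ℤ := fun j =>
  ⌊((D + 2 : ℕ) : ℝ) ^ k * (⟪e j, x - x₀⟫ / L) + (i : ℝ) / (D + 1)⌋

/-- The coarser cell containing a cell. -/
def gpar (i : ℕ) (z : Fin D → ℤ) : Fin D → ℤ := fun j => (z j + i) / ((D + 2 : ℕ) : ℤ)

/-- All cells at level `k` meeting the ball of radius `L`. -/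
def gbox (D k : ℕ) : Finset (Fin D → ℤ) :=
  Fintype.piFinset fun _ => Finset.Icc (-(((D + 2 : ℕ) : ℤ) ^ k + 1)) (((D + 2 : ℕ) : ℤ) ^ k + 1)

lemma gcell_par (i k : ℕ) (x : X) : gcell e x₀ L i k x = gpar i (gcell e x₀ L i (k + 1) x) := by
  funext j
  simp only [gcell, gpar]
  rw [← Int.floor_add_intCast, Int.cast_natCast]
  set u := ((D + 2 : ℕ) : ℝ) ^ (k + 1) * (⟪e j, x - x₀⟫ / L) + (i : ℝ) / (D + 1) + (i : ℝ)
  have : ((D + 2 : ℕ) : ℝ) ^ k * (⟪e j, x - x₀⟫ / L) + (i : ℝ) / (D + 1) = u / ((D + 2 : ℕ) : ℝ) := by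
    simp only [u]; push_cast; field_simp; ring
  rw [this]
  exact Int.floor_div_natCast u (D + 2)

lemma measurableSet_gcell (i k : ℕ) (z : Fin D → ℤ) : MeasurableSet {x | gcell e x₀ L i k x = z} := by
  have h : Measurable (gcell e x₀ L i k) := by
    refine measurable_pi_lambda _ fun j => ?_
    unfold gcell
    fun_prop
  exact h (measurableSet_singleton z)

lemma gcell_mem {i k : ℕ} (hi : i ≤ D) {x : X} (hL : 0 < L) (hx : x ∈ ball x₀ L) :
    gcell e x₀ L i k x ∈ gbox D k := by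
  refine Fintype.mem_piFinset.2 fun j => Finset.mem_Icc.2 ?_
  have h0 : |⟪e j, x - x₀⟫ / L| ≤ 1 := by
    rw [abs_div, abs_of_pos hL, div_le_one hL]
    refine (abs_real_inner_le_norm _ _).trans ?_
    rw [e.orthonormal.1, one_mul]
    rw [mem_ball, dist_eq_norm] at hx
    exact hx.le
  have hb : (0:ℝ) ≤ ((D + 2 : ℕ) : ℝ) ^ k := by positivity
  obtain ⟨h1, h2⟩ := abs_le.1 h0
  have ha : (i : ℝ) / (D + 1) < 1 := by
    rw [div_lt_one (by positivity)]
    exact_mod_cast Nat.lt_succ_of_le hi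
  have ha0 : (0:ℝ) ≤ (i : ℝ) / (D + 1) := by positivity
  have g1 := mul_le_mul_of_nonneg_left h1 hb
  have g2 := mul_le_mul_of_nonneg_left h2 hb
  constructor
  · refine Int.le_floor.2 ?_
    push_cast at g1 ⊢
    linarith
  · refine Int.floor_le_iff.2 ?_
    push_cast at g2 ⊢
    linarith

/-- Points of one cell are close. -/
lemma gcell_dist {i k : ℕ} {x y : X} (hL : 0 < L) (h : gcell e x₀ L i k x = gcell e x₀ L i k y) :
    ‖x - y‖ ≤ ((D : ℝ) + 1) * L / ((D + 2 : ℕ) : ℝ) ^ k := by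
  have hb : (0:ℝ) < ((D + 2 : ℕ) : ℝ) ^ k := by positivity
  have hj : ∀ j, |⟪e j, x - y⟫| ≤ L / ((D + 2 : ℕ) : ℝ) ^ k := fun j => by
    have h1 := Int.abs_sub_lt_one_of_floor_eq_floor (congrFun h j)
    rw [add_sub_add_right_eq_sub, ← mul_sub, ← sub_div, ← inner_sub_right, sub_sub_sub_cancel_right,
      abs_mul, abs_of_pos hb, abs_div, abs_of_pos hL] at h1
    rw [le_div_iff₀ hb]
    rw [← mul_div_assoc, div_lt_one hL] at h1
    linarith
  conv_lhs => rw [← e.sum_repr' (x - y)]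
  refine (norm_sum_le _ _).trans ((Finset.sum_le_card_nsmul _ _ (L / ((D + 2 : ℕ) : ℝ) ^ k) fun j _ => ?_).trans ?_)
  · rw [norm_smul, e.orthonormal.1, mul_one]
    exact hj j
  · rw [Finset.card_univ, Fintype.card_fin, nsmul_eq_mul, mul_div_assoc]
    exact mul_le_mul_of_nonneg_right (by linarith) (by positivity)

/-- Some grid has a cell containing a given small ball. -/
lemma exists_shift (hL : 0 < L) (k : ℕ) (y : X) {ρ : ℝ}
    (hρ : ρ * (4 * ((D : ℝ) + 1)) * ((D + 2 : ℕ) : ℝ) ^ k ≤ L) :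
    ∃ i ≤ D, ∀ x, dist x y ≤ ρ → gcell e x₀ L i k x = gcell e x₀ L i k y := by
  classical
  set w : ℝ := 1 / (4 * ((D : ℝ) + 1))
  have hw : 0 < w := by positivity
  set u : Fin D → ℝ := fun j => ((D + 2 : ℕ) : ℝ) ^ k * (⟪e j, y - x₀⟫ / L)
  set bad : Fin D → Finset ℕ := fun j =>
    (Finset.range (D + 1)).filter fun i => ⌊u j + (i : ℝ) / (D + 1) - w⌋ ≠ ⌊u j + (i : ℝ) / (D + 1) + w⌋
  have hbad : ∀ j, (bad j).card ≤ 1 := by
    intro j
    refine Finset.card_le_one.2 fun a ha b hb => ?_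
    simp only [bad, Finset.mem_filter, Finset.mem_range] at ha hb
    wlog hab : a ≤ b generalizing a b
    · exact (this b a hb ha (le_of_not_ge hab)).symm
    by_contra hne
    have h1 : (a : ℝ) + 1 ≤ b := by exact_mod_cast Nat.lt_of_le_of_ne hab hne
    have h2 : (b : ℝ) ≤ D := by exact_mod_cast Nat.lt_succ_iff.1 hb.1
    set A := u j + (a : ℝ) / (D + 1)
    set B := u j + (b : ℝ) / (D + 1)
    have e1 : 4 * w ≤ B - A := by
      simp only [A, B, w]
      rw [add_sub_add_left_eq_sub, ← sub_div, mul_div_assoc', div_le_div_iff₀ (by positivity) (by positivity)]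
      nlinarith [mul_le_mul_of_nonneg_right h1 (show (0:ℝ) ≤ 4 * ((D : ℝ) + 1) by positivity)]
    have e2 : B - A ≤ 1 - 4 * w := by
      simp only [A, B, w]
      rw [add_sub_add_left_eq_sub, ← sub_div, mul_div_assoc', le_sub_iff_add_le, div_add_div _ _ (by positivity) (by positivity),
        div_le_one (by positivity)]
      nlinarith [show (0:ℝ) ≤ a from a.cast_nonneg]
    have g1 : ⌊A - w⌋ + 1 ≤ ⌊A + w⌋ :=
      Int.add_one_le_iff.2 (lt_of_le_of_ne (Int.floor_le_floor (by linarith)) ha.2)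
    have g2 : ⌊B - w⌋ + 1 ≤ ⌊B + w⌋ :=
      Int.add_one_le_iff.2 (lt_of_le_of_ne (Int.floor_le_floor (by linarith)) hb.2)
    have f1 := Int.floor_le (A + w)
    have f2 := Int.lt_floor_add_one (A - w)
    have f3 := Int.floor_le (B + w)
    have f4 := Int.lt_floor_add_one (B - w)
    have p1 : (⌊A + w⌋ : ℝ) ≤ A + w := f1
    have p2 : A - w < (⌊A + w⌋ : ℝ) := f2.trans_le (by exact_mod_cast g1)
    have p3 : B - w < (⌊B + w⌋ : ℝ) := f4.trans_le (by exact_mod_cast g2)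
    have q1 : ⌊A + w⌋ < ⌊B + w⌋ := by
      have : (⌊A + w⌋ : ℝ) < ⌊B + w⌋ := by linarith
      exact_mod_cast this
    have q2 : ⌊B + w⌋ < ⌊A + w⌋ + 1 := by
      have : (⌊B + w⌋ : ℝ) < ⌊A + w⌋ + 1 := by linarith
      exact_mod_cast this
    omega
  obtain ⟨i, hi, hib⟩ := Finset.exists_mem_notMem_of_card_lt_card
    (show (Finset.univ.biUnion bad).card < (Finset.range (D + 1)).card by
      rw [Finset.card_range]
      refine Nat.lt_succ_of_le ((Finset.card_biUnion_le_card_mul _ _ 1 fun j _ => hbad j).trans ?_)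
      simp)
  rw [Finset.mem_range] at hi
  refine ⟨i, Nat.lt_succ_iff.1 hi, fun x hx => funext fun j => ?_⟩
  have heq : ⌊u j + (i : ℝ) / (D + 1) - w⌋ = ⌊u j + (i : ℝ) / (D + 1) + w⌋ := by
    by_contra h
    exact hib (Finset.mem_biUnion.2 ⟨j, Finset.mem_univ _, Finset.mem_filter.2 ⟨Finset.mem_range.2 hi, h⟩⟩)
  set v := ((D + 2 : ℕ) : ℝ) ^ k * (⟪e j, x - x₀⟫ / L)
  have hv : |v - u j| ≤ w := by
    simp only [v, u]
    rw [← mul_sub, ← sub_div, ← inner_sub_right, sub_sub_sub_cancel_right, abs_mul,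
      abs_of_pos (show (0:ℝ) < ((D + 2 : ℕ) : ℝ) ^ k by positivity), abs_div, abs_of_pos hL]
    refine le_trans (mul_le_mul_of_nonneg_left (div_le_div_of_nonneg_right ((abs_real_inner_le_norm _ _).trans ?_) hL.le)
      (by positivity)) (le_trans (le_of_eq (mul_div_assoc' _ _ _)) ?_) (b := ((D + 2 : ℕ) : ℝ) ^ k * (ρ / L))
    · rw [e.orthonormal.1, one_mul, ← dist_eq_norm]; exact hx
    · simp only [w]
      rw [div_le_div_iff₀ hL (by positivity)]
      linarith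
  obtain ⟨h1, h2⟩ := abs_le.1 hv
  have a1 := Int.floor_le_floor (show u j + (i : ℝ) / (D + 1) - w ≤ v + (i : ℝ) / (D + 1) by linarith)
  have a2 := Int.floor_le_floor (show v + (i : ℝ) / (D + 1) ≤ u j + (i : ℝ) / (D + 1) + w by linarith)
  have a3 := Int.floor_le_floor (show u j + (i : ℝ) / (D + 1) - w ≤ u j + (i : ℝ) / (D + 1) by linarith)
  have a4 := Int.floor_le_floor (show u j + (i : ℝ) / (D + 1) ≤ u j + (i : ℝ) / (D + 1) + w by linarith)
  show ⌊v + (i : ℝ) / (D + 1)⌋ = ⌊u j + (i : ℝ) / (D + 1)⌋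
  omega

end

end Vale.Agent.P120.Flat
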