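import Vale.Agent.P120.Flat.Desc

/-!
Testing bounds on balls give flat balls in every neighbourhood of every point of the support.
-/

set_option linter.unusedSectionVars false

open MeasureTheory Filter Topology Set Metric
open scoped RealInnerProductSpace

namespace Vale.Agent.P120.Flat

noncomputable section

variable {X : Type*} [NormedAddCommGroup X] [InnerProductSpace ℝ X] [FiniteDimensional ℝ X]
  [MeasurableSpace X] [BorelSpace X]

/-- Truncated Riesz transform of the indicator of `B`. -/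
def rt (μ : Measure X) (n : ℕ) (B : Set X) (ε : ℝ) (x : X) : X :=
  ∫ y in B ∩ {y | ε < ‖x - y‖}, kern n (x - y) ∂μ

/-- Uniform testing bound on balls. -/
def Tested (μ : Measure X) (n : ℕ) (Cb : ℝ) : Prop :=
  ∀ (c : X) (r ε : ℝ), 0 < ε →
    ∫ x in ball c r, ‖rt μ n (ball c r) ε x‖ ^ 2 ∂μ ≤ Cb * μ.real (ball c r)

variable {μ : Measure X} [IsLocallyFiniteMeasure μ] {S : Set X} {n : ℕ} {C r₀ Cb : ℝ}

lemma measurableSet_far (x : X) (ε : ℝ) : MeasurableSet {y : X | ε < ‖x - y‖} :=
  (isOpen_lt (f := fun _ : X => ε) (g := fun y => ‖x - y‖) (by fun_prop) (by fun_prop)).measurableSet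

lemma stronglyMeasurable_rt (c : X) (r ε : ℝ) :
    StronglyMeasurable (rt μ n (ball c r) ε) := by
  have : Fact (μ (ball c r) < ⊤) := ⟨measure_ball_lt_top⟩
  have h : rt μ n (ball c r) ε = fun x => ∫ y in ball c r,
      {q : X × X | ε < ‖q.1 - q.2‖}.indicator (fun q => kern n (q.1 - q.2)) (x, y) ∂μ := by
    funext x
    rw [rt, ← setIntegral_indicator (measurableSet_far x ε)]
    rfl
  rw [h]
  refine StronglyMeasurable.integral_prod_right' (ν := μ.restrict (ball c r))
    (f := {q : X × X | ε < ‖q.1 - q.2‖}.indicator fun q => kern n (q.1 - q.2)) ?_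
  exact ((measurable_kern n).comp (measurable_fst.sub measurable_snd)).stronglyMeasurable.indicator
    (isOpen_lt (f := fun _ : X × X => ε) (g := fun q => ‖q.1 - q.2‖) (by fun_prop)
      (by fun_prop)).measurableSet

lemma norm_rt_le (c : X) (r : ℝ) {ε : ℝ} (hε : 0 < ε) (x : X) :
    ‖rt μ n (ball c r) ε x‖ ≤ (ε ^ n)⁻¹ * μ.real (ball c r) := by
  refine (norm_setIntegral_le_of_norm_le_const (C := (ε ^ n)⁻¹)
    (measure_lt_top_of_subset_ball inter_subset_left) fun y hy => ?_).trans ?_
  · exact norm_kern_le n hε (le_of_lt hy.2)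
  · exact mul_le_mul_of_nonneg_left (measureReal_mono_ball inter_subset_left) (by positivity)

/-- A weak limit of the truncated transforms of a ball. -/
lemma exists_weak_limit (hT : Tested μ n Cb) (c : X) (r : ℝ) :
    ∃ h : Lp X 2 (μ.restrict (ball c r)), ‖h‖ ^ 2 ≤ |Cb| * μ.real (ball c r) ∧ ∀ (B : Set X), MeasurableSet B → B ⊆ ball c r →
      ∀ (w : X) (K : ℝ), (∀ᶠ ε in 𝓝[>] (0:ℝ), ‖(∫ x in B, rt μ n (ball c r) ε x ∂μ) - w‖ ≤ K) →
        ‖(∫ x in B, h x ∂μ) - w‖ ≤ K := by
  set ν := μ.restrict (ball c r) with hν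
  have : IsFiniteMeasure ν := ⟨by rw [hν, Measure.restrict_apply_univ]; exact measure_ball_lt_top⟩
  have hmem : ∀ ε : ℝ, 0 < ε → MemLp (rt μ n (ball c r) ε) 2 ν := fun ε hε =>
    MemLp.of_bound (stronglyMeasurable_rt c r ε).aestronglyMeasurable _
      (Eventually.of_forall fun x => norm_rt_le c r hε x)
  classical
  let F : ℝ → Lp X 2 ν := fun ε => if hε : 0 < ε then (hmem ε hε).toLp _ else 0
  set D := Real.sqrt (|Cb| * μ.real (ball c r)) with hD
  have hFn : ∀ ε, 0 < ε → ‖F ε‖ ≤ D := fun ε hε => by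
    refine Real.le_sqrt_of_sq_le ?_
    rw [← real_inner_self_eq_norm_sq, L2.inner_def]
    refine le_trans (le_of_eq ?_) ((hT c r ε hε).trans
      (mul_le_mul_of_nonneg_right (le_abs_self Cb) measureReal_nonneg))
    refine integral_congr_ae ?_
    simp only [F, dif_pos hε]
    filter_upwards [(hmem ε hε).coeFn_toLp] with x hx
    rw [hx, real_inner_self_eq_norm_sq]
  let U : Ultrafilter ℝ := Ultrafilter.of (𝓝[>] (0:ℝ))
  have hU : (U : Filter ℝ) ≤ 𝓝[>] (0:ℝ) := Ultrafilter.of_le _
  have hlim : ∀ g : Lp X 2 ν, ∃ v, |v| ≤ D * ‖g‖ ∧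
      Tendsto (fun ε => ⟪g, F ε⟫) (U : Filter ℝ) (𝓝 v) := fun g => by
    obtain ⟨v, hv, hv'⟩ := (isCompact_Icc (a := -(D * ‖g‖)) (b := D * ‖g‖)).ultrafilter_le_nhds
      (U.map fun ε => ⟪g, F ε⟫) (by
        rw [Ultrafilter.coe_map, le_principal_iff, mem_map]
        refine hU ?_
        filter_upwards [self_mem_nhdsWithin] with ε hε
        refine abs_le.1 ?_
        refine (abs_real_inner_le_norm _ _).trans ?_
        rw [mul_comm]
        exact mul_le_mul_of_nonneg_right (hFn ε hε) (norm_nonneg _))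
    exact ⟨v, abs_le.2 hv, hv'⟩
  choose φ hφb hφ using hlim
  let L : Lp X 2 ν →ₗ[ℝ] ℝ :=
    { toFun := φ
      map_add' := fun a b => tendsto_nhds_unique (hφ (a + b))
        (by simpa only [inner_add_left] using (hφ a).add (hφ b))
      map_smul' := fun s a => tendsto_nhds_unique (hφ (s • a))
        (by simpa only [real_inner_smul_left, RingHom.id_apply, smul_eq_mul]
          using (hφ a).const_mul s) }
  let Lc : StrongDual ℝ (Lp X 2 ν) := L.mkContinuous D fun g => hφb g
  refine ⟨(InnerProductSpace.toDual ℝ (Lp X 2 ν)).symm Lc, ?_, fun B hB hBs w K hK => ?_⟩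
  · rw [LinearIsometryEquiv.norm_map]
    exact (pow_le_pow_left₀ (norm_nonneg Lc) (L.mkContinuous_norm_le (Real.sqrt_nonneg _) _) 2).trans_eq
      (Real.sq_sqrt (by positivity))
  set h := (InnerProductSpace.toDual ℝ (Lp X 2 ν)).symm Lc
  have hνB : ν B ≠ ⊤ := measure_ne_top ν B
  have hres : ν.restrict B = μ.restrict B := by
    rw [hν, Measure.restrict_restrict hB, inter_eq_left.2 hBs]
  set e := (∫ x in B, h x ∂μ) - w with he
  have key : ⟪e, ∫ x in B, h x ∂μ⟫ = φ (indicatorConstLp 2 hB hνB e) := by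
    have h1 : ⟪indicatorConstLp 2 hB hνB e, h⟫ = ⟪e, ∫ x in B, h x ∂ν⟫ :=
      L2.inner_indicatorConstLp_eq_inner_setIntegral ℝ hB hνB e h
    rw [show ∫ x in B, h x ∂ν = ∫ x in B, h x ∂μ by rw [hres]] at h1
    rw [← h1, real_inner_comm]
    exact InnerProductSpace.toDual_symm_apply (y := Lc)
  have hev : ∀ᶠ ε in (U : Filter ℝ),
      ⟪indicatorConstLp 2 hB hνB e, F ε⟫ ≤ ⟪e, w⟫ + ‖e‖ * K := by
    refine hU ?_
    filter_upwards [self_mem_nhdsWithin, hK] with ε hε hε'
    rw [L2.inner_indicatorConstLp_eq_inner_setIntegral ℝ hB hνB e (F ε), hres]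
    rw [show ∫ x in B, F ε x ∂μ = ∫ x in B, rt μ n (ball c r) ε x ∂μ by
      refine integral_congr_ae ?_
      rw [← hres]
      simp only [F, dif_pos (show 0 < ε from hε)]
      exact ae_restrict_of_ae (hmem ε hε).coeFn_toLp]
    have := real_inner_le_norm e ((∫ x in B, rt μ n (ball c r) ε x ∂μ) - w)
    rw [inner_sub_right] at this
    linarith [mul_le_mul_of_nonneg_left hε' (norm_nonneg e)]
  have hle := le_of_tendsto (hφ _) hev
  rw [← key] at hle
  have h2 : ‖e‖ ^ 2 ≤ ‖e‖ * K := by
    rw [← real_inner_self_eq_norm_sq]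
    conv_lhs => arg 2; rw [he]
    rw [inner_sub_right]; linarith
  rcases eq_or_ne e 0 with h0 | h0
  · rw [h0, norm_zero]
    obtain ⟨ε, hε⟩ := hK.exists
    exact (norm_nonneg _).trans hε
  · exact le_of_mul_le_mul_left (by rw [← sq]; exact h2) (norm_pos_iff.2 h0)

/-- On a small ball the truncated transform of a larger ball is nearly the outer integral at the
centre. -/
lemma Reg.integral_rt_near (h : Reg μ S n C r₀) (hT : Tested μ n Cb) {c x : X} {R r ε : ℝ}
    (hx : x ∈ S) (hR : R * 2 ≤ r₀) (hr : 0 < r) (hε : 0 < ε) (hεr : ε < r)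
    (hsub : ball x (2 * r) ⊆ ball c R) (hr2 : 2 * r ≤ r₀) {U : Set X} (hU : MeasurableSet U)
    (hUs : U ⊆ ball x r) :
    ‖(∫ x' in U, rt μ n (ball c R) ε x' ∂μ) -
        μ.real U • ∫ y in ball c R \ ball x (2 * r), kern n (x - y) ∂μ‖ ≤
      ((1 + |Cb|) / 2 * C * 2 ^ n +
        C * ((2 ^ (n + 1) + ((n : ℝ) + 1) * 4 ^ (n + 1)) * (C * 2 ^ (n + 2)))) * r ^ n := by
  have hC := h.C_pos
  set L := (2:ℝ) ^ (n + 1) + ((n : ℝ) + 1) * 4 ^ (n + 1) with hL
  have hL0 : 0 ≤ L := by positivity
  have hxc : ‖x - c‖ < R := by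
    have := hsub (mem_ball_self (by linarith)); rwa [mem_ball, dist_eq_norm] at this
  set D := ball c R \ ball x (2 * r) with hD
  have hDann : D ⊆ ann x (2 * r) (2 * R) := fun y hy => by
    obtain ⟨h1, h2⟩ := hy
    rw [mem_ball, dist_eq_norm] at h1 h2
    refine ⟨by rw [norm_sub_rev]; exact le_of_not_gt h2, ?_⟩
    calc ‖x - y‖ = ‖(x - c) + -(y - c)‖ := by congr 1; abel
      _ ≤ _ := (norm_add_le _ _).trans_eq (by rw [norm_neg])
      _ < 2 * R := by linarith
  set T := ∫ y in D, kern n (x - y) ∂μ with hTdef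
  have hpt : ∀ x' ∈ ball x r,
      ‖rt μ n (ball c R) ε x' - T‖ ≤ ‖rt μ n (ball x (2 * r)) ε x'‖ + L * (C * 2 ^ (n + 2)) := by
    intro x' hx'
    rw [mem_ball, dist_eq_norm] at hx'
    have hfar : ∀ y ∈ D, r ≤ ‖x' - y‖ := fun y hy => by
      have h1 := (hDann hy).1
      have : ‖x - y‖ ≤ ‖x' - x‖ + ‖x' - y‖ := by
        calc ‖x - y‖ = ‖-(x' - x) + (x' - y)‖ := by congr 1; abel
          _ ≤ _ := (norm_add_le _ _).trans_eq (by rw [norm_neg])
      linarith
    have hset : ball c R ∩ {y | ε < ‖x' - y‖} =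
        (ball x (2 * r) ∩ {y | ε < ‖x' - y‖}) ∪ D := by
      ext y
      constructor
      · rintro ⟨h1, h2⟩
        by_cases hy : y ∈ ball x (2 * r)
        · exact Or.inl ⟨hy, h2⟩
        · exact Or.inr ⟨h1, hy⟩
      · rintro (⟨h1, h2⟩ | hy)
        · exact ⟨hsub h1, h2⟩
        · exact ⟨hy.1, lt_of_lt_of_le hεr (hfar y hy)⟩
    have hm : StronglyMeasurable fun y => kern n (x' - y) :=
      ((measurable_kern n).comp (measurable_const.sub measurable_id)).stronglyMeasurable
    have hi2 : IntegrableOn (fun y => kern n (x' - y)) D μ :=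
      Measure.integrableOn_of_bounded (measure_lt_top_of_subset_ball sdiff_subset).ne
        hm.aestronglyMeasurable
        ((ae_restrict_mem (measurableSet_ball.diff measurableSet_ball)).mono fun y hy =>
          norm_kern_le n hr (hfar y hy))
    have hi1 : IntegrableOn (fun y => kern n (x' - y))
        (ball x (2 * r) ∩ {y | ε < ‖x' - y‖}) μ :=
      Measure.integrableOn_of_bounded (measure_lt_top_of_subset_ball inter_subset_left).ne
        hm.aestronglyMeasurable
        ((ae_restrict_mem (measurableSet_ball.inter (measurableSet_far x' ε))).mono fun y hy =>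
          norm_kern_le n hε (le_of_lt hy.2))
    have hi3 : IntegrableOn (fun y => kern n (x - y)) D μ :=
      (integrableOn_kern x (2 * R) (by linarith)).mono_set hDann
    rw [rt, hset, setIntegral_union (Set.disjoint_left.2 fun y hy hy' => hy'.2 hy.1)
      (measurableSet_ball.diff measurableSet_ball) hi1 hi2, hTdef, add_sub_assoc, ← integral_sub hi2 hi3]
    refine (norm_add_le _ _).trans (add_le_add_right ?_ _)
    have hI : IntegrableOn (fun y => L * r * (‖x - y‖ ^ (n + 1))⁻¹) (ann x (2 * r) (2 * R)) μ :=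
      (integrableOn_ann (stronglyMeasurable_inv_pow x _)
        fun y hy => inv_pow_le _ (by linarith) hy.1).const_mul _
    refine (norm_integral_le_of_norm_le (hI.mono_set hDann) ((ae_restrict_mem
      (measurableSet_ball.diff measurableSet_ball)).mono fun y hy => ?_)).trans ?_
    · have h2 : 2 * ‖x' - x‖ ≤ ‖x - y‖ := by linarith [(hDann hy).1]
      have h3 := norm_kern_add_sub_le n h2
      rw [show x - y + (x' - x) = x' - y by abel] at h3
      refine h3.trans (mul_le_mul_of_nonneg_right ?_ (by positivity))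
      exact mul_le_mul_of_nonneg_left hx'.le hL0
    · refine (setIntegral_mono_set hI (Eventually.of_forall fun y => by positivity)
        hDann.eventuallyLE).trans ?_
      rw [integral_const_mul]
      refine (mul_le_mul_of_nonneg_left (h.ann_inv_le hx (by linarith) (by linarith))
        (by positivity)).trans ?_
      rw [show L * r * (C * 2 ^ (n + 2) / (2 * r)) = L * (C * 2 ^ (n + 2)) / 2 by field_simp]
      have : 0 ≤ L * (C * 2 ^ (n + 2)) := by positivity
      linarith
  have hfin : μ U < ⊤ := measure_lt_top_of_subset_ball hUs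
  have hint : IntegrableOn (rt μ n (ball c R) ε) U μ :=
    Measure.integrableOn_of_bounded hfin.ne (stronglyMeasurable_rt c R ε).aestronglyMeasurable
      (Eventually.of_forall fun x' => norm_rt_le c R hε x')
  rw [← setIntegral_const, ← integral_sub hint (integrableOn_const hfin.ne)]
  set f := fun x' => rt μ n (ball x (2 * r)) ε x' with hf
  have hf2 : IntegrableOn (fun x' => ‖f x'‖ ^ 2) (ball x (2 * r)) μ :=
    Measure.integrableOn_of_bounded measure_ball_lt_top.ne
      (((stronglyMeasurable_rt x (2 * r) ε).norm.pow 2).aestronglyMeasurable)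
      (M := ((ε ^ n)⁻¹ * μ.real (ball x (2 * r))) ^ 2) (Eventually.of_forall fun x' => by
        rw [norm_pow, norm_norm]
        exact pow_le_pow_left₀ (norm_nonneg _) (norm_rt_le x (2 * r) hε x') 2)
  have hc : IntegrableOn (fun _ : X => (1:ℝ)) (ball x (2 * r)) μ :=
    integrableOn_const measure_ball_lt_top.ne
  have hbig : IntegrableOn (fun x' => (1 + ‖f x'‖ ^ 2) / 2) (ball x (2 * r)) μ :=
    (hc.add hf2).div_const 2
  have hsm : U ⊆ ball x (2 * r) := hUs.trans (ball_subset_ball (by linarith))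
  refine (norm_integral_le_of_norm_le
    ((hbig.mono_set hsm).add (integrableOn_const hfin.ne (C := L * (C * 2 ^ (n + 2)))))
    ((ae_restrict_mem hU).mono fun x' hx' => (hpt x' (hUs hx')).trans
      (add_le_add (by nlinarith [sq_nonneg (‖f x'‖ - 1)]) le_rfl))).trans ?_
  rw [integral_add' (hbig.mono_set hsm) (integrableOn_const hfin.ne), setIntegral_const,
    smul_eq_mul]
  have e1 : ∫ x' in U, (1 + ‖f x'‖ ^ 2) / 2 ∂μ ≤ (1 + |Cb|) / 2 * C * 2 ^ n * r ^ n := by
    refine (setIntegral_mono_set hbig (Eventually.of_forall fun x' => by positivity)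
      hsm.eventuallyLE).trans ?_
    rw [integral_div, integral_add hc hf2, setIntegral_const, smul_eq_mul, mul_one]
    have h1 := hT x (2 * r) ε hε
    have h2 := h.upper x hx (2 * r) (by linarith) hr2
    rw [mul_pow] at h2
    have h3 : Cb * μ.real (ball x (2 * r)) ≤ |Cb| * μ.real (ball x (2 * r)) :=
      mul_le_mul_of_nonneg_right (le_abs_self _) measureReal_nonneg
    nlinarith [mul_le_mul_of_nonneg_left h2 (show 0 ≤ (1 + |Cb|) / 2 by positivity)]
  have e2 := mul_le_mul_of_nonneg_right ((measureReal_mono_ball hUs).trans (h.upper x hx r hr (by linarith)))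
    (show 0 ≤ L * (C * 2 ^ (n + 2)) by positivity)
  nlinarith

end

end Vale.Agent.P120.Flat
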