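import Vale.Agent.P120.Flat.Uniform

/-!
If every piece of a set has expanded copies inside all small balls, flat balls pull back to
Lipschitz images of `n`-balls, so the testing bound gives uniform rectifiability.
-/

set_option linter.unusedSectionVars false

open MeasureTheory Filter Topology Set Metric
open scoped RealInnerProductSpace NNReal ENNReal

namespace Vale.Agent.P120.Flat

noncomputable section

variable {X : Type*} [NormedAddCommGroup X] [InnerProductSpace ℝ X] [FiniteDimensional ℝ X]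

/-- A contraction of `ℝ^n` onto a subspace of dimension at most `n` that is isometric there. -/
lemma exists_plane_map {n : ℕ} {W : Submodule ℝ X} (hW : Module.finrank ℝ W ≤ n) :
    ∃ e : EuclideanSpace ℝ (Fin n) → X,
      (∀ u v, ‖e u - e v‖ ≤ ‖u - v‖) ∧ ∀ w ∈ W, ∃ u, e u = w ∧ ‖u‖ ≤ ‖w‖ := by
  classical
  set k := Module.finrank ℝ W
  let b := stdOrthonormalBasis ℝ W
  let p : EuclideanSpace ℝ (Fin n) → EuclideanSpace ℝ (Fin k) := fun u =>
    WithLp.toLp 2 fun i => u (Fin.castLE hW i)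
  refine ⟨fun u => ((b.repr.symm (p u) : W) : X), fun u v => ?_, fun w hw => ?_⟩
  · simp only
    rw [← Submodule.coe_sub, Submodule.norm_coe, ← map_sub, LinearIsometryEquiv.norm_map,
      EuclideanSpace.norm_eq, EuclideanSpace.norm_eq]
    refine Real.sqrt_le_sqrt ?_
    calc ∑ i : Fin k, ‖(p u - p v) i‖ ^ 2
        = ∑ j ∈ Finset.univ.map (Fin.castLEEmb hW), ‖(u - v) j‖ ^ 2 := by
          rw [Finset.sum_map]; rfl
      _ ≤ _ := Finset.sum_le_univ_sum_of_nonneg fun j => by positivity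
  · let u : EuclideanSpace ℝ (Fin n) := WithLp.toLp 2 fun j =>
      if hj : (j : ℕ) < k then b.repr ⟨w, hw⟩ ⟨j, hj⟩ else 0
    have hpu : p u = b.repr ⟨w, hw⟩ := by
      ext i
      simp [p, u]
    refine ⟨u, by simp [hpu], le_of_eq ?_⟩
    have hwn : ‖w‖ = ‖b.repr ⟨w, hw⟩‖ := by rw [LinearIsometryEquiv.norm_map]; rfl
    rw [hwn, EuclideanSpace.norm_eq, EuclideanSpace.norm_eq]
    congr 1
    rw [← Finset.sum_subset (Finset.subset_univ (Finset.univ.map (Fin.castLEEmb hW)))
      fun j _ hj => ?_, Finset.sum_map]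
    · refine Finset.sum_congr rfl fun i _ => ?_
      simp [u]
      rfl
    · have : ¬ (j : ℕ) < k := fun h =>
        hj (Finset.mem_map.2 ⟨⟨j, h⟩, Finset.mem_univ _, rfl⟩)
      simp [u, this]

/-- Copies of `A` expanded by at most `R / (c r)` in arbitrarily flat balls make `A` a part of a
Lipschitz image of an `n`-ball, with constants depending only on `c`. -/
theorem exists_lipschitz_image (n : ℕ) {c : ℝ} (hc : 0 < c) : ∃ M : ℝ≥0, ∀ (S A : Set X) (R : ℝ),
    0 < R → Bornology.IsBounded A →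
    (∀ η : ℝ, 0 < η → ∃ x ∈ S, ∃ r : ℝ, 0 < r ∧ FlatIn S n x r η ∧ ∃ f : X → X,
      (∀ a ∈ A, f a ∈ S ∧ dist (f a) x ≤ r) ∧
      ∀ a ∈ A, ∀ b ∈ A, c * (r / R) * dist a b ≤ dist (f a) (f b)) →
    ∃ g : EuclideanSpace ℝ (Fin n) → X, LipschitzWith M g ∧ A ⊆ g '' ball 0 R := by
  classical
  set L0 := lipschitzExtensionConstant X
  refine ⟨L0 * 4 * Real.toNNReal (1 / c), fun S A R hR hA hcopy => ?_⟩
  set M : ℝ≥0 := L0 * 4 * Real.toNNReal (1 / c) with hM
  rcases A.eq_empty_or_nonempty with rfl | ⟨a₀, ha₀⟩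
  · exact ⟨fun _ => 0, LipschitzWith.const' _, empty_subset _⟩
  -- approximate images
  have happrox : ∀ η : ℝ, 0 < η → η ≤ 1 / 4 → ∃ G : EuclideanSpace ℝ (Fin n) → X,
      LipschitzWith M G ∧ ∀ a ∈ A, ∃ u, ‖u‖ ≤ R / 2 ∧ ‖G u - a‖ ≤ (L0 : ℝ) * R / c * η := by
    intro η hη hη4
    obtain ⟨x, hxS, r, hr, ⟨p, W, hW, hflat⟩, f, hf, hlow⟩ := hcopy η hη
    obtain ⟨e, helip, hesurj⟩ := exists_plane_map hW
    obtain ⟨wx, hwx, hwxd⟩ := hflat x hxS (by simp [hr.le])
    have hinj : InjOn f A := fun a ha b hb h => by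
      have h1 := hlow a ha b hb
      rw [h, dist_self] at h1
      have h2 : 0 < c * (r / R) := by positivity
      exact dist_le_zero.1 (by nlinarith [dist_nonneg (x := a) (y := b)])
    have hg0 : LipschitzOnWith (Real.toNNReal (R / (c * r))) (Function.invFunOn f A) (f '' A) := by
      refine LipschitzOnWith.of_dist_le_mul ?_
      rintro _ ⟨a, ha, rfl⟩ _ ⟨b, hb, rfl⟩
      rw [hinj.leftInvOn_invFunOn ha, hinj.leftInvOn_invFunOn hb,
        Real.coe_toNNReal _ (by positivity)]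
      have h1 := hlow a ha b hb
      calc dist a b = R / (c * r) * (c * (r / R) * dist a b) := by field_simp
        _ ≤ _ := mul_le_mul_of_nonneg_left h1 (by positivity)
    obtain ⟨ĝ, hĝ, hĝeq⟩ := hg0.extend_finite_dimension
    refine ⟨fun u => ĝ (p + wx + e ((4 * r / R) • u)),
      LipschitzWith.of_dist_le_mul fun u v => ?_, fun a ha => ?_⟩
    · refine (hĝ.dist_le_mul _ _).trans ?_
      rw [dist_add_left, dist_eq_norm, dist_eq_norm]
      refine (mul_le_mul_of_nonneg_left (helip _ _) (NNReal.coe_nonneg _)).trans (le_of_eq ?_)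
      rw [← smul_sub, norm_smul, Real.norm_of_nonneg (by positivity), hM]
      push_cast
      rw [Real.coe_toNNReal _ (by positivity), Real.coe_toNNReal _ (by positivity)]
      field_simp
      simp only [L0]
      ring
    · obtain ⟨wa, hwa, hwad⟩ := hflat (f a) (hf a ha).1 (hf a ha).2
      obtain ⟨u0, hu0, hu0n⟩ := hesurj _ (W.sub_mem hwa hwx)
      refine ⟨(R / (4 * r)) • u0, ?_, ?_⟩
      · rw [norm_smul, Real.norm_of_nonneg (by positivity)]
        have h1 : ‖wa - wx‖ ≤ ‖f a - x‖ + η * r + η * r := by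
          calc ‖wa - wx‖ = ‖(f a - x) - (f a - (p + wa)) + (x - (p + wx))‖ := by
                congr 1; abel
            _ ≤ ‖f a - x‖ + ‖f a - (p + wa)‖ + ‖x - (p + wx)‖ :=
                (norm_add_le _ _).trans (add_le_add (norm_sub_le _ _) le_rfl)
            _ ≤ _ := by linarith
        have h2 : ‖f a - x‖ ≤ r := by rw [← dist_eq_norm]; exact (hf a ha).2
        have h3 : η * r ≤ 1 / 4 * r := mul_le_mul_of_nonneg_right hη4 hr.le
        calc R / (4 * r) * ‖u0‖ ≤ R / (4 * r) * (2 * r) := by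
              gcongr; linarith
          _ = R / 2 := by field_simp; ring
      · simp only
        rw [smul_smul, show 4 * r / R * (R / (4 * r)) = 1 by field_simp, one_smul, hu0,
          show p + wx + (wa - wx) = p + wa by abel]
        have h1 : ĝ (f a) = a := by
          rw [← hĝeq ⟨a, ha, rfl⟩, hinj.leftInvOn_invFunOn ha]
        nth_rw 1 [← h1]
        rw [← dist_eq_norm]
        refine (hĝ.dist_le_mul _ _).trans ?_
        rw [dist_eq_norm, norm_sub_rev]
        push_cast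
        rw [Real.coe_toNNReal _ (by positivity)]
        calc (L0 : ℝ) * (R / (c * r)) * ‖f a - (p + wa)‖ ≤ L0 * (R / (c * r)) * (η * r) := by
              gcongr
          _ = _ := by field_simp
  let η : ℕ → ℝ := fun k => 1 / ((k : ℝ) + 4)
  choose G hG hGA using fun k => happrox (η k) (by positivity)
    (one_div_le_one_div_of_le (by norm_num) (by simp))
  obtain ⟨B, hB⟩ := hA.exists_norm_le
  -- bound for the approximate maps
  have hGb : ∀ k u, ‖G k u‖ ≤ (L0 : ℝ) * R / c + B + M * (‖u‖ + R) := by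
    intro k u
    obtain ⟨ua, hua, hd⟩ := hGA k a₀ ha₀
    have h1 : (L0 : ℝ) * R / c * η k ≤ L0 * R / c * 1 := by
      refine mul_le_mul_of_nonneg_left ?_ (by positivity)
      simp only [η]
      rw [div_le_one (by positivity)]
      linarith [(Nat.cast_nonneg k : (0 : ℝ) ≤ k)]
    have h2 := (hG k).dist_le_mul u ua
    rw [dist_eq_norm, dist_eq_norm] at h2
    have h3 : ‖u - ua‖ ≤ ‖u‖ + R := (norm_sub_le _ _).trans (by linarith)
    have h4 : (M : ℝ) * ‖u - ua‖ ≤ M * (‖u‖ + R) := mul_le_mul_of_nonneg_left h3 M.2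
    calc ‖G k u‖ = ‖(G k u - G k ua) + ((G k ua - a₀) + a₀)‖ := by congr 1; abel
      _ ≤ ‖G k u - G k ua‖ + (‖G k ua - a₀‖ + ‖a₀‖) :=
          (norm_add_le _ _).trans (add_le_add le_rfl (norm_add_le _ _))
      _ ≤ _ := by linarith [hB a₀ ha₀]
  let U : Ultrafilter ℕ := Ultrafilter.of atTop
  have hU : (U : Filter ℕ) ≤ atTop := Ultrafilter.of_le _
  have hlim : ∀ u, ∃ y, Tendsto (fun k => G k u) U (𝓝 y) := by
    intro u
    obtain ⟨y, -, hy⟩ := (isCompact_closedBall (0 : X) _).ultrafilter_le_nhds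
      (U.map fun k => G k u) (by
        rw [Ultrafilter.coe_map, le_principal_iff, Filter.mem_map]
        exact Filter.univ_mem' fun k => mem_closedBall_zero_iff.2 (hGb k u))
    exact ⟨y, by rwa [Ultrafilter.coe_map] at hy⟩
  choose g hg using hlim
  refine ⟨g, LipschitzWith.of_dist_le_mul fun u v => ?_, fun a ha => ?_⟩
  · exact le_of_tendsto' ((hg u).dist (hg v)) fun k => (hG k).dist_le_mul u v
  · choose ua hua hda using fun k => hGA k a ha
    obtain ⟨u, hu, hut⟩ := (isCompact_closedBall (0 : EuclideanSpace ℝ (Fin n))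
      (R / 2)).ultrafilter_le_nhds (U.map ua) (by
        rw [Ultrafilter.coe_map, le_principal_iff, Filter.mem_map]
        exact Filter.univ_mem' fun k => mem_closedBall_zero_iff.2 (hua k))
    rw [Ultrafilter.coe_map] at hut
    refine ⟨u, mem_ball_zero_iff.2 (by linarith [mem_closedBall_zero_iff.1 hu]), ?_⟩
    have h0 : Tendsto (fun k => (L0 : ℝ) * R / c * η k + M * dist (ua k) u) U (𝓝 (0 + 0)) := by
      refine Tendsto.add ?_ ?_
      · have h1 : Tendsto η atTop (𝓝 0) :=
          tendsto_const_nhds.div_atTop (tendsto_atTop_add_const_right _ _ tendsto_natCast_atTop_atTop)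
        simpa using (h1.mono_left hU).const_mul ((L0 : ℝ) * R / c)
      · simpa using (tendsto_iff_dist_tendsto_zero.1 hut).const_mul (M : ℝ)
    have h2 : dist (g u) a ≤ 0 + 0 := le_of_tendsto_of_tendsto' ((hg u).dist tendsto_const_nhds) h0
      fun k => by
        refine (dist_triangle _ (G k (ua k)) _).trans ?_
        rw [add_comm, dist_eq_norm (G k (ua k)) a, dist_comm (ua k) u]
        exact add_le_add (hda k) ((hG k).dist_le_mul _ _)
    exact dist_le_zero.1 (by linarith)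

variable [MeasurableSpace X] [BorelSpace X]

/-- `n`-regularity at all scales up to the diameter. -/
def RegDiam (μ : Measure X) (S : Set X) (n : ℕ) (C : ℝ) : Prop :=
  ∀ x ∈ S, ∀ r : ℝ, 0 < r → ENNReal.ofReal r ≤ ediam S →
    r ^ n / C ≤ μ.real (ball x r) ∧ μ.real (ball x r) ≤ C * r ^ n

/-- Uniform rectifiability by big pieces of Lipschitz images. -/
def BigPieces (μ : Measure X) (S : Set X) (n : ℕ) : Prop :=
  ∃ θ : ℝ, 0 < θ ∧ ∃ M : ℝ≥0, ∀ x ∈ S, ∀ R : ℝ, 0 < R → ENNReal.ofReal R ≤ ediam S →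
    ∃ g : EuclideanSpace ℝ (Fin n) → X, LipschitzOnWith M g (ball 0 R) ∧
      θ * R ^ n ≤ μ.real (ball x R ∩ g '' ball 0 R)

variable {μ : Measure X} [IsLocallyFiniteMeasure μ] {S : Set X} {n : ℕ} {C Cb : ℝ}

/-- Big pieces with expanded copies in all small balls turn the testing bound into big pieces of
Lipschitz images. -/
theorem bigPieces_of_copies (hclosed : IsClosed S) (hnull : μ Sᶜ = 0) (hC : 0 < C)
    (hreg : RegDiam μ S n C) (hT : Tested μ n Cb)
    (hcopy : ∃ c θ : ℝ, 0 < c ∧ 0 < θ ∧ ∀ x ∈ S, ∀ R : ℝ, 0 < R → ENNReal.ofReal R ≤ ediam S →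
      ∃ A ⊆ ball x R, θ * R ^ n ≤ μ.real A ∧ ∃ δ : ℝ, 0 < δ ∧ ∀ y ∈ S, ∀ r : ℝ, 0 < r → r ≤ δ →
        ∃ f : X → X, (∀ a ∈ A, f a ∈ S ∧ dist (f a) y ≤ r) ∧
          ∀ a ∈ A, ∀ b ∈ A, c * (r / R) * dist a b ≤ dist (f a) (f b)) :
    BigPieces μ S n := by
  obtain ⟨c, θ, hc, hθ, hcopy⟩ := hcopy
  obtain ⟨M, hM⟩ := exists_lipschitz_image (X := X) n hc
  refine ⟨θ, hθ, M, fun x hx R hR hRd => ?_⟩
  obtain ⟨A, hAx, hAθ, δ, hδ, hf⟩ := hcopy x hx R hR hRd
  have h : Reg μ S n C R :=
    { closed := hclosed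
      null := hnull
      C_pos := hC
      r_pos := hR
      lower := fun z hz r h1 h2 => (hreg z hz r h1 ((ENNReal.ofReal_le_ofReal h2).trans hRd)).1
      upper := fun z hz r h1 h2 => (hreg z hz r h1 ((ENNReal.ofReal_le_ofReal h2).trans hRd)).2 }
  obtain ⟨g, hg, hAg⟩ := hM S A R hR (isBounded_ball.subset hAx) fun η hη => by
    obtain ⟨y, hy, r, hr, hrδ, -, hflat⟩ := h.exists_flat hT hx hδ hη
    exact ⟨y, hy, r, hr, hflat, hf y hy r hr hrδ⟩
  exact ⟨g, hg.lipschitzOnWith, hAθ.trans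
    (measureReal_mono (subset_inter hAx hAg) ((measure_mono inter_subset_left).trans_lt
      measure_ball_lt_top).ne)⟩

end

end Vale.Agent.P120.Flat
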