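import Vale.Agent.P120.Flat.Quasi

/-!
Bi-Lipschitz images of self-similar sets, with arbitrary overlaps, have big pieces with expanded
copies in all small balls, as soon as they are regular.
-/

set_option linter.unusedSectionVars false

open MeasureTheory Filter Topology Set Metric
open scoped RealInnerProductSpace NNReal ENNReal

namespace Vale.Agent.P120.Flat

noncomputable section

variable {Y : Type*} [MetricSpace Y]

/-- A self-similar set has a piece of every size around every point. -/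
lemma exists_piece {N : ℕ} {F : Fin N → Y → Y} {ρ : Fin N → ℝ} {K : Set Y} {a b : ℝ}
    (ha : 0 < a) (ha1 : a ≤ 1) (hb0 : 0 < b) (hab : ∀ i, a ≤ ρ i ∧ ρ i ≤ b)
    (hsim : ∀ i, ∀ x ∈ K, ∀ y ∈ K, dist (F i x) (F i y) = ρ i * dist x y)
    (hK : K = ⋃ i, F i '' K) :
    ∀ (m : ℕ) (t : ℝ), b ^ m ≤ t → t ≤ 1 → ∀ y ∈ K, ∃ (φ : Y → Y) (s : ℝ),
      0 < s ∧ a * t ≤ s ∧ s ≤ t ∧ MapsTo φ K K ∧
        (∀ u ∈ K, ∀ v ∈ K, dist (φ u) (φ v) = s * dist u v) ∧ y ∈ φ '' K := by
  have hmaps : ∀ i, MapsTo (F i) K K := fun i z hz => by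
    rw [hK]; exact mem_iUnion.2 ⟨i, z, hz, rfl⟩
  intro m
  induction m with
  | zero =>
    intro t h1 h2 y hy
    have ht : t = 1 := le_antisymm h2 (by simpa using h1)
    subst ht
    exact ⟨id, 1, one_pos, by simpa using ha1, le_rfl, mapsTo_id K, by simp, y, hy, rfl⟩
  | succ m ih =>
    intro t h1 h2 y hy
    have ht0 : 0 < t := (pow_pos hb0 _).trans_le h1
    have hy' := hy
    rw [hK] at hy'
    obtain ⟨i, z, hz, rfl⟩ := mem_iUnion.1 hy'
    have hρ0 : 0 < ρ i := ha.trans_le (hab i).1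
    rcases le_or_gt (ρ i) t with hle | hgt
    · exact ⟨F i, ρ i, hρ0, (mul_le_of_le_one_right ha.le h2).trans (hab i).1, hle, hmaps i,
        hsim i, z, hz, rfl⟩
    · obtain ⟨φ, s, hs0, hs1, hs2, hφ, hφs, u, hu, hφu⟩ := ih (t / ρ i) (by
          rw [le_div_iff₀ hρ0]
          exact (mul_le_mul_of_nonneg_left (hab i).2 (pow_nonneg hb0.le m)).trans
            (by rwa [← pow_succ]))
        ((div_le_one hρ0).2 hgt.le) z hz
      refine ⟨F i ∘ φ, ρ i * s, mul_pos hρ0 hs0, ?_, ?_, (hmaps i).comp hφ, fun u hu v hv => ?_,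
        u, hu, by simp [hφu]⟩
      · rw [mul_div_assoc', div_le_iff₀ hρ0] at hs1
        linarith
      · rw [le_div_iff₀ hρ0] at hs2
        linarith
      · simp only [Function.comp_apply]
        rw [hsim i _ (hφ hu) _ (hφ hv), hφs u hu v hv, mul_assoc]

variable {X : Type*} [NormedAddCommGroup X] [InnerProductSpace ℝ X] [FiniteDimensional ℝ X]
  [MeasurableSpace X] [BorelSpace X] {μ : Measure X} [IsLocallyFiniteMeasure μ]
  {S : Set X} {n : ℕ} {C Cb : ℝ}

/-- A compact part of a regular set that a Lipschitz map sends onto the whole set has mass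
bounded below. -/
lemma measure_lower_of_onto (hC : 0 < C) (hreg : RegDiam μ S n C) {A : Set X}
    (hA : IsCompact A) (hAS : A ⊆ S) {κ : X → X} {Λ : ℝ} (hΛ : 0 < Λ) (hS : S ⊆ κ '' A)
    (hκ : ∀ a ∈ A, ∀ b ∈ A, dist (κ a) (κ b) ≤ Λ * dist a b) (hκS : MapsTo κ A S)
    (hd : 0 < ediam S) :
    μ.real S ≤ C ^ 2 * (3 * Λ) ^ n * μ.real A := by
  classical
  obtain ⟨D₀, hD₀, hD₀d⟩ : ∃ D₀ : ℝ, 0 < D₀ ∧ ENNReal.ofReal D₀ ≤ ediam S := by
    rcases eq_or_ne (ediam S) ⊤ with h | h
    · exact ⟨1, one_pos, by simp [h]⟩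
    · exact ⟨(ediam S).toReal, ENNReal.toReal_pos hd.ne' h, ENNReal.ofReal_toReal_le⟩
  set K := C ^ 2 * (3 * Λ) ^ n with hK
  have hscale : ∀ s, 0 < s → s ≤ D₀ → ∀ z ∈ S,
      s ^ n / C ≤ μ.real (ball z s) ∧ μ.real (ball z s) ≤ C * s ^ n := fun s hs hsD z hz =>
    hreg z hz s hs ((ENNReal.ofReal_le_ofReal hsD).trans hD₀d)
  set t₀ := min D₀ (D₀ / (3 * Λ)) with ht₀
  have ht₀0 : 0 < t₀ := lt_min hD₀ (by positivity)
  have key : ∀ t, 0 < t → t ≤ t₀ → μ.real S ≤ K * μ.real (cthickening t A) := by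
    intro t ht htt
    have htD : t ≤ D₀ := htt.trans (min_le_left _ _)
    have htΛ : 3 * Λ * t ≤ D₀ := by
      have := htt.trans (min_le_right _ _)
      rw [le_div_iff₀ (by positivity)] at this
      linarith
    have hfin : μ (cthickening t A) ≠ ⊤ := hA.isBounded.cthickening.measure_lt_top.ne
    -- a packing has boundedly many points
    have hpack : ∀ T : Finset X, (T : Set X) ⊆ A →
        (∀ a ∈ T, ∀ b ∈ T, a ≠ b → 2 * t ≤ dist a b) →
          (T.card : ℝ) * (t ^ n / C) ≤ μ.real (cthickening t A) := by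
      intro T hT hsep
      calc (T.card : ℝ) * (t ^ n / C) = ∑ _a ∈ T, t ^ n / C := by simp
        _ ≤ ∑ a ∈ T, μ.real (ball a t) :=
            Finset.sum_le_sum fun a ha => (hscale t ht htD a (hAS (hT ha))).1
        _ = μ.real (⋃ a ∈ T, ball a t) := by
            refine (measureReal_biUnion_finset (fun a ha b hb hab => ?_)
              (fun a _ => measurableSet_ball) fun a _ => measure_ball_lt_top.ne).symm
            exact ball_disjoint_ball (by linarith [hsep a ha b hb hab])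
        _ ≤ _ := measureReal_mono (iUnion₂_subset fun a ha y hy =>
            mem_cthickening_of_dist_le y a t A (hT ha) (mem_ball.1 hy).le) hfin
    let Ns : Set ℕ := {m | ∃ T : Finset X, T.card = m ∧ (T : Set X) ⊆ A ∧
      ∀ a ∈ T, ∀ b ∈ T, a ≠ b → 2 * t ≤ dist a b}
    have hne : Ns.Nonempty := ⟨0, ∅, by simp⟩
    have hbdd : BddAbove Ns := by
      obtain ⟨m₀, hm₀⟩ := exists_nat_gt (μ.real (cthickening t A) / (t ^ n / C))
      refine ⟨m₀, ?_⟩
      rintro m ⟨T, rfl, hT, hsep⟩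
      rw [div_lt_iff₀ (by positivity)] at hm₀
      have := (hpack T hT hsep).trans hm₀.le
      exact_mod_cast le_of_mul_le_mul_right this (by positivity)
    obtain ⟨T, hTc, hT, hsep⟩ := Nat.sSup_mem hne hbdd
    have hcov : S ⊆ ⋃ a ∈ T, ball (κ a) (3 * Λ * t) := by
      intro s hs
      obtain ⟨z, hz, rfl⟩ := hS hs
      by_cases h : ∃ a ∈ T, dist z a < 2 * t
      · obtain ⟨a, ha, hza⟩ := h
        refine mem_iUnion₂.2 ⟨a, ha, mem_ball.2 ((hκ z hz a (hT ha)).trans_lt ?_)⟩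
        calc Λ * dist z a ≤ Λ * (2 * t) := mul_le_mul_of_nonneg_left hza.le hΛ.le
          _ < _ := by nlinarith
      · push Not at h
        have hzT : z ∉ T := fun hzT => by
          have := h z hzT
          rw [dist_self] at this
          linarith
        have : T.card + 1 ∈ Ns := ⟨insert z T, Finset.card_insert_of_notMem hzT,
          by rw [Finset.coe_insert]; exact Set.insert_subset hz hT, fun p hp q hq hpq => by
            rcases Finset.mem_insert.1 hp with rfl | hp' <;>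
              rcases Finset.mem_insert.1 hq with rfl | hq'
            · exact absurd rfl hpq
            · exact h q hq'
            · rw [dist_comm]; exact h p hp'
            · exact hsep p hp' q hq' hpq⟩
        have := le_csSup hbdd this
        omega
    calc μ.real S ≤ μ.real (⋃ a ∈ T, ball (κ a) (3 * Λ * t)) :=
          measureReal_mono hcov ((measure_biUnion_lt_top T.finite_toSet fun a _ =>
            measure_ball_lt_top).ne)
      _ ≤ ∑ a ∈ T, μ.real (ball (κ a) (3 * Λ * t)) := measureReal_biUnion_finset_le _ _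
      _ ≤ ∑ _a ∈ T, C * (3 * Λ * t) ^ n :=
          Finset.sum_le_sum fun a ha => (hscale _ (by positivity) htΛ _ (hκS (hT ha))).2
      _ = K * ((T.card : ℝ) * (t ^ n / C)) := by
          simp only [Finset.sum_const, nsmul_eq_mul, hK, mul_pow]; field_simp
      _ ≤ _ := mul_le_mul_of_nonneg_left (hpack T hT hsep) (by positivity)
  have hlim : Tendsto (fun t => K * μ.real (cthickening t A)) (𝓝[>] (0 : ℝ))
      (𝓝 (K * μ.real A)) := by
    refine (((ENNReal.tendsto_toReal hA.measure_lt_top.ne).comp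
      (tendsto_measure_cthickening_of_isCompact hA)).mono_left nhdsWithin_le_nhds).const_mul K
  exact ge_of_tendsto hlim (eventually_of_mem (Ioo_mem_nhdsGT ht₀0) fun t ht => key t ht.1 ht.2.le)

/-- A regular bi-Lipschitz image of a self-similar set on whose balls the testing bound holds
has big pieces of Lipschitz images. -/
theorem bigPieces_selfSimilar (hnull : μ Sᶜ = 0) (hC : 0 < C) (hreg : RegDiam μ S n C)
    (hT : Tested μ n Cb) {N : ℕ} {F : Fin N → Y → Y} {ρ : Fin N → ℝ} {K : Set Y}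
    (hK : IsCompact K) (hKF : K = ⋃ i, F i '' K) (hρ : ∀ i, 0 < ρ i ∧ ρ i < 1)
    (hsim : ∀ i, ∀ x ∈ K, ∀ y ∈ K, dist (F i x) (F i y) = ρ i * dist x y)
    {h : Y → X} {L : ℝ} (hL : 0 < L) (hlo : ∀ x ∈ K, ∀ y ∈ K, dist x y ≤ L * dist (h x) (h y))
    (hhi : ∀ x ∈ K, ∀ y ∈ K, dist (h x) (h y) ≤ L * dist x y) (hSK : S = h '' K) :
    BigPieces μ S n := by
  classical
  have hcont : ContinuousOn h K := by
    refine (LipschitzOnWith.of_dist_le_mul (K := L.toNNReal) fun x hx y hy => ?_).continuousOn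
    rw [Real.coe_toNNReal _ hL.le]
    exact hhi x hx y hy
  have hScpt : IsCompact S := hSK ▸ hK.image_of_continuousOn hcont
  rcases eq_zero_or_pos (a := ediam S) with hd0 | hd0
  · exact ⟨1, one_pos, 0, fun x _ R hR hRd => absurd hRd (by simp [hd0, hR])⟩
  obtain ⟨D, hD, hDle⟩ : ∃ D : ℝ, 0 < D ∧ ∀ x ∈ K, ∀ y ∈ K, dist x y ≤ D :=
    ⟨max 1 (Metric.diam K), lt_max_of_lt_left one_pos,
      fun x hx y hy => (dist_le_diam_of_mem hK.isBounded hx hy).trans (le_max_right _ _)⟩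
  obtain ⟨x₀, hx₀⟩ : S.Nonempty := by
    rcases S.eq_empty_or_nonempty with h | h
    · simp [h] at hd0
    · exact h
  obtain ⟨y₀, hy₀, -⟩ : ∃ y₀, y₀ ∈ K ∧ h y₀ = x₀ := by
    rw [hSK] at hx₀
    exact hx₀
  obtain ⟨i₀⟩ : Nonempty (Fin N) := by
    rw [hKF] at hy₀
    exact ⟨(mem_iUnion.1 hy₀).choose⟩
  have hne : (Finset.univ : Finset (Fin N)).Nonempty := ⟨i₀, Finset.mem_univ _⟩
  set a := Finset.univ.inf' hne ρ with ha
  set b := Finset.univ.sup' hne ρ with hb
  have hab : ∀ i, a ≤ ρ i ∧ ρ i ≤ b := fun i =>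
    ⟨Finset.inf'_le _ (Finset.mem_univ i), Finset.le_sup' _ (Finset.mem_univ i)⟩
  have ha0 : 0 < a := (Finset.lt_inf'_iff hne).2 fun i _ => (hρ i).1
  have hb1 : b < 1 := (Finset.sup'_lt_iff hne).2 fun i _ => (hρ i).2
  have hb0 : 0 < b := (hρ i₀).1.trans_le (hab i₀).2
  have hpiece : ∀ t, 0 < t → t ≤ 1 → ∀ y ∈ K, ∃ (φ : Y → Y) (s : ℝ), 0 < s ∧ a * t ≤ s ∧ s ≤ t ∧
      MapsTo φ K K ∧ (∀ u ∈ K, ∀ v ∈ K, dist (φ u) (φ v) = s * dist u v) ∧ y ∈ φ '' K := by
    intro t ht ht1 y hy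
    obtain ⟨m, hm⟩ := exists_pow_lt_of_lt_one ht hb1
    exact exists_piece ha0 ((hab i₀).1.trans (hρ i₀).2.le) hb0 hab hsim hKF m t hm.le ht1 y hy
  have hdiam : ∀ R, ENNReal.ofReal R ≤ ediam S → R ≤ L * D := by
    intro R hR
    refine (ENNReal.ofReal_le_ofReal_iff (by positivity)).1 (hR.trans (ediam_le ?_))
    rintro _ hp _ hq
    rw [hSK] at hp hq
    obtain ⟨u, hu, rfl⟩ := hp
    obtain ⟨v, hv, rfl⟩ := hq
    rw [edist_dist]
    exact ENNReal.ofReal_le_ofReal
      ((hhi u hu v hv).trans (mul_le_mul_of_nonneg_left (hDle u hu v hv) hL.le))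
  -- the whole set has positive mass
  have hS0 : 0 < μ.real S := by
    obtain ⟨D₀, hD₀, hD₀d⟩ : ∃ D₀ : ℝ, 0 < D₀ ∧ ENNReal.ofReal D₀ ≤ ediam S :=
      ⟨(ediam S).toReal, ENNReal.toReal_pos hd0.ne' hScpt.isBounded.ediam_ne_top,
        ENNReal.ofReal_toReal_le⟩
    refine lt_of_lt_of_le ?_ ((hreg x₀ hx₀ D₀ hD₀ hD₀d).1.trans ?_)
    · positivity
    · rw [measureReal_def, measureReal_def]
      refine ENNReal.toReal_mono hScpt.measure_lt_top.ne ?_
      rw [← measure_inter_conull hnull]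
      exact measure_mono inter_subset_right
  refine bigPieces_of_copies hScpt.isClosed hnull hC hreg hT ⟨a / L ^ 2,
    μ.real S / (C ^ 2 * (3 * (2 * L ^ 3 * D / a)) ^ n), by positivity, by positivity,
    fun x hx R hR hRd => ?_⟩
  obtain ⟨y, hy, rfl⟩ : ∃ y, y ∈ K ∧ h y = x := by
    rw [hSK] at hx
    exact hx
  have hRLD := hdiam R hRd
  set t := R / (2 * L * D) with ht
  have ht0 : 0 < t := by positivity
  obtain ⟨φ, s, hs0, hs1, hs2, hφ, hφs, u₀, hu₀, rfl⟩ := hpiece t ht0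
    (by rw [ht, div_le_one (by positivity)]; nlinarith [mul_pos hL hD]) _ hy
  set A := (h ∘ φ) '' K with hA
  have hlow : ∀ u ∈ K, ∀ v ∈ K, s * dist u v ≤ L * dist (h (φ u)) (h (φ v)) := fun u hu v hv =>
    hφs u hu v hv ▸ hlo _ (hφ hu) _ (hφ hv)
  have hinj : InjOn (h ∘ φ) K := fun u hu v hv e => by
    have h1 := hlow u hu v hv
    simp only [Function.comp_apply] at e
    rw [e, dist_self, mul_zero] at h1
    exact dist_le_zero.1 (by nlinarith [dist_nonneg (x := u) (y := v)])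
  have hAcpt : IsCompact A := hK.image_of_continuousOn (hcont.comp
    ((LipschitzOnWith.of_dist_le_mul (K := s.toNNReal) fun u hu v hv => by
      rw [Real.coe_toNNReal _ hs0.le, hφs u hu v hv]).continuousOn) hφ)
  have hAS : A ⊆ S := by
    rintro _ ⟨u, hu, rfl⟩
    exact hSK ▸ mem_image_of_mem h (hφ hu)
  have : Nonempty Y := ⟨u₀⟩
  set inv := Function.invFunOn (h ∘ φ) K with hinv
  have hinvA : ∀ u ∈ K, inv (h (φ u)) = u := fun u hu => hinj.leftInvOn_invFunOn hu
  refine ⟨A, ?_, ?_, R, hR, fun y' hy' r hr hrR => ?_⟩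
  · rintro _ ⟨u, hu, rfl⟩
    rw [mem_ball, Function.comp_apply]
    calc dist (h (φ u)) (h (φ u₀)) ≤ L * dist (φ u) (φ u₀) := hhi _ (hφ hu) _ (hφ hu₀)
      _ = L * (s * dist u u₀) := by rw [hφs u hu u₀ hu₀]
      _ ≤ L * (t * D) := mul_le_mul_of_nonneg_left
          (mul_le_mul hs2 (hDle u hu u₀ hu₀) dist_nonneg ht0.le) hL.le
      _ = R / 2 := by rw [ht]; field_simp
      _ < R := by linarith
  · have hkey := measure_lower_of_onto hC hreg hAcpt hAS (κ := fun p => h (inv p))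
      (Λ := L ^ 2 / s) (by positivity) (fun p hp => by
        rw [hSK] at hp
        obtain ⟨u, hu, rfl⟩ := hp
        exact ⟨h (φ u), ⟨u, hu, rfl⟩, congrArg h (hinvA u hu)⟩)
      (fun p hp q hq => by
        obtain ⟨u, hu, rfl⟩ := hp
        obtain ⟨v, hv, rfl⟩ := hq
        simp only [Function.comp_apply, hinvA u hu, hinvA v hv]
        refine (hhi u hu v hv).trans ?_
        rw [div_mul_eq_mul_div, le_div_iff₀ hs0]
        calc L * dist u v * s = L * (s * dist u v) := by ring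
          _ ≤ L * (L * dist (h (φ u)) (h (φ v))) :=
              mul_le_mul_of_nonneg_left (hlow u hu v hv) hL.le
          _ = _ := by ring)
      (fun p hp => by
        obtain ⟨u, hu, rfl⟩ := hp
        simp only [Function.comp_apply, hinvA u hu]
        exact hSK ▸ mem_image_of_mem h hu) hd0
    have h3 : L ^ 2 / s ≤ 2 * L ^ 3 * D / a / R := by
      calc L ^ 2 / s ≤ L ^ 2 / (a * t) := div_le_div_of_nonneg_left (by positivity) (by positivity) hs1
        _ = _ := by rw [ht]; field_simp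
    have h4 : μ.real S ≤ C ^ 2 * (3 * (2 * L ^ 3 * D / a / R)) ^ n * μ.real A :=
      hkey.trans (mul_le_mul_of_nonneg_right (by gcongr) measureReal_nonneg)
    rw [div_mul_eq_mul_div, div_le_iff₀ (by positivity)]
    calc μ.real S * R ^ n ≤ C ^ 2 * (3 * (2 * L ^ 3 * D / a / R)) ^ n * μ.real A * R ^ n :=
          mul_le_mul_of_nonneg_right h4 (by positivity)
      _ = μ.real A * (C ^ 2 * ((3 * (2 * L ^ 3 * D / a / R)) ^ n * R ^ n)) := by ring
      _ = _ := by
          rw [← mul_pow]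
          congr 3
          field_simp
  · obtain ⟨z, hz, rfl⟩ : ∃ z, z ∈ K ∧ h z = y' := by
      rw [hSK] at hy'
      exact hy'
    set t' := r / (2 * L * D) with ht'
    obtain ⟨ψ, s', hs0', hs1', hs2', hψ, hψs, v₀, hv₀, rfl⟩ := hpiece t' (by positivity)
      (by rw [ht', div_le_one (by positivity)]; nlinarith [mul_pos hL hD]) _ hz
    refine ⟨fun p => h (ψ (inv p)), ?_, ?_⟩
    · rintro _ ⟨u, hu, rfl⟩
      simp only [Function.comp_apply, hinvA u hu]
      refine ⟨hSK ▸ mem_image_of_mem h (hψ hu), ?_⟩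
      calc dist (h (ψ u)) (h (ψ v₀)) ≤ L * dist (ψ u) (ψ v₀) := hhi _ (hψ hu) _ (hψ hv₀)
        _ = L * (s' * dist u v₀) := by rw [hψs u hu v₀ hv₀]
        _ ≤ L * (t' * D) := mul_le_mul_of_nonneg_left
            (mul_le_mul hs2' (hDle u hu v₀ hv₀) dist_nonneg (by positivity)) hL.le
        _ = r / 2 := by rw [ht']; field_simp
        _ ≤ r := by linarith
    · rintro _ ⟨u, hu, rfl⟩ _ ⟨v, hv, rfl⟩
      simp only [Function.comp_apply, hinvA u hu, hinvA v hv]
      have e1 : s' * dist u v ≤ L * dist (h (ψ u)) (h (ψ v)) :=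
        hψs u hu v hv ▸ hlo _ (hψ hu) _ (hψ hv)
      have e2 : dist (h (φ u)) (h (φ v)) ≤ L * (s * dist u v) :=
        hφs u hu v hv ▸ hhi _ (hφ hu) _ (hφ hv)
      refine le_of_mul_le_mul_left (le_trans ?_ e1) hL
      calc L * (a / L ^ 2 * (r / R) * dist (h (φ u)) (h (φ v)))
          ≤ L * (a / L ^ 2 * (r / R) * (L * (t * dist u v))) := by
            gcongr
            exact e2.trans (by gcongr)
        _ = a * t' * dist u v := by rw [ht, ht']; field_simp
        _ ≤ _ := mul_le_mul_of_nonneg_right hs1' dist_nonneg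

end

end Vale.Agent.P120.Flat
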