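import Vale.Agent.P120.Flat.Window

/-!
Testing bounds give a flat ball of comparable radius inside every ball centred on the support.
-/

set_option linter.unusedSectionVars false

open MeasureTheory Filter Topology Set Metric
open scoped RealInnerProductSpace

namespace Vale.Agent.P120.Flat

noncomputable section

variable {X : Type*} [NormedAddCommGroup X] [InnerProductSpace ℝ X] [FiniteDimensional ℝ X]
  [MeasurableSpace X] [BorelSpace X]
variable {μ : Measure X} [IsLocallyFiniteMeasure μ] {S : Set X} {n : ℕ} {C r₀ Cb : ℝ}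

/-- The constant in the comparison of averages with annular integrals. -/
def nearK (n : ℕ) (C Cb : ℝ) : ℝ :=
  (1 + |Cb|) / 2 * C * 2 ^ n + C * ((2 ^ (n + 1) + ((n : ℝ) + 1) * 4 ^ (n + 1)) * (C * 2 ^ (n + 2)))

/-- Annular integrals as differences of outer integrals. -/
lemma norm_ann_le {B : Set X} (hB : MeasurableSet B) (hBfin : μ B < ⊤) {x : X} {r ρ : ℝ} (hr : 0 < r)
    (hrρ : r ≤ ρ) (hsub : ball x ρ ⊆ B) {v : X} {A : ℝ}
    (h1 : ‖v - ∫ y in B \ ball x r, kern n (x - y) ∂μ‖ ≤ A)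
    (h2 : ‖v - ∫ y in B \ ball x ρ, kern n (x - y) ∂μ‖ ≤ A) :
    ‖∫ y in ann x r ρ, kern n (x - y) ∂μ‖ ≤ 2 * A := by
  have hset : B \ ball x r = ann x r ρ ∪ (B \ ball x ρ) := by
    ext y
    have hb : ∀ s : ℝ, y ∈ ball x s ↔ ‖x - y‖ < s := fun s => by
      rw [mem_ball, dist_eq_norm, norm_sub_rev]
    simp only [ann, Set.mem_sdiff, mem_union, hb, mem_ofPred_eq, not_lt]
    constructor
    · rintro ⟨h1, h2⟩
      rcases lt_or_ge ‖x - y‖ ρ with h3 | h3
      · exact Or.inl ⟨h2, h3⟩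
      · exact Or.inr ⟨h1, h3⟩
    · rintro (⟨h1, h2⟩ | ⟨h1, h2⟩)
      · exact ⟨hsub ((hb ρ).2 h2), h1⟩
      · exact ⟨h1, hrρ.trans h2⟩
  have hio : ∀ s, 0 < s → IntegrableOn (fun y => kern n (x - y)) (B \ ball x s) μ := fun s hs =>
    Measure.integrableOn_of_bounded ((measure_mono sdiff_subset).trans_lt hBfin).ne
      ((measurable_kern n).comp (measurable_const.sub measurable_id)).aestronglyMeasurable
      ((ae_restrict_mem (hB.diff measurableSet_ball)).mono fun y hy => by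
        refine norm_kern_le n hs ?_
        rw [← dist_eq_norm, dist_comm]
        exact le_of_not_gt hy.2)
  rw [hset, setIntegral_union (Set.disjoint_left.2 fun y hy hy' => hy'.2 (ann_subset_ball x r ρ hy))
    (hB.diff measurableSet_ball) (integrableOn_kern x ρ hr) (hio ρ (hr.trans_le hrρ))] at h1
  set a := ∫ y in ann x r ρ, kern n (x - y) ∂μ
  set T := ∫ y in B \ ball x ρ, kern n (x - y) ∂μ
  rw [show a = (v - T) - (v - (a + T)) by abel]
  linarith [norm_sub_le (v - T) (v - (a + T))]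

section near
variable {D : ℕ} {e : OrthonormalBasis (Fin D) ℝ X} {c₀ : X} {L : ℝ} {f : X → X}

/-- In a cell with a small gain, outer integrals are close to the mean of the cell. -/
lemma Reg.outer_near (h : Reg μ S n C r₀) (hT : Tested μ n Cb) (hL : 0 < L) (hL2 : L * 2 ≤ r₀)
    (hf : IntegrableOn f (ball c₀ L) μ)
    (hprop : ∀ (B : Set X), MeasurableSet B → B ⊆ ball c₀ L → ∀ (w : X) (K : ℝ),
      (∀ᶠ ε in 𝓝[>] (0:ℝ), ‖(∫ x in B, rt μ n (ball c₀ L) ε x ∂μ) - w‖ ≤ K) →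
        ‖(∫ x in B, f x ∂μ) - w‖ ≤ K)
    {i k p : ℕ} (hi : i ≤ D) {q : Fin D → ℤ} {x : X} (hx : x ∈ S) {s : ℝ} (hs : 0 < s)
    (hsub : ball x (2 * s) ⊆ ball c₀ L) (hs2 : 2 * s ≤ r₀) (hcell : ball x s ⊆ {y | gcell e c₀ L i k y = q})
    (hfine : ((D : ℝ) + 1) * L / ((D + 2 : ℕ) : ℝ) ^ (k + p) < s / 2)
    (hgain : gainQ e c₀ L μ f i k p q ≤ s ^ n) :
    ‖(cm e c₀ L μ i k q)⁻¹ • ci e c₀ L μ f i k q -
        ∫ y in ball c₀ L \ ball x (2 * s), kern n (x - y) ∂μ‖ ≤
      C * 2 ^ n * (nearK n C Cb + C + 1) := by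
  classical
  have hC := h.C_pos
  set v := (cm e c₀ L μ i k q)⁻¹ • ci e c₀ L μ f i k q
  set T := ∫ y in ball c₀ L \ ball x (2 * s), kern n (x - y) ∂μ
  set s' := (gbox D (k + p)).filter fun w => ∃ y ∈ ball x (s / 2), gcell e c₀ L i (k + p) y = w
  set U := ⋃ w ∈ s', cset e c₀ L i (k + p) w
  have hxs : ball x s ⊆ ball c₀ L := (ball_subset_ball (by linarith)).trans hsub
  have hUs : U ⊆ ball x s := Set.iUnion₂_subset fun w hw y hy => by
    obtain ⟨y', hy', he⟩ := (Finset.mem_filter.1 hw).2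
    have h1 := gcell_dist e c₀ L hL (hy.2.trans he.symm)
    rw [mem_ball, dist_eq_norm] at hy' ⊢
    linarith [norm_sub_le_norm_sub_add_norm_sub y y' x]
  have hin : ball x (s / 2) ⊆ U := fun y hy => by
    have hyB : y ∈ ball c₀ L := hxs (ball_subset_ball (by linarith) hy)
    exact Set.mem_iUnion₂.2 ⟨gcell e c₀ L i (k + p) y,
      Finset.mem_filter.2 ⟨gcell_mem e c₀ L hi hL hyB, y, hy, rfl⟩, hyB, rfl⟩
  have hU : MeasurableSet U := Finset.measurableSet_biUnion _ fun w _ => measurableSet_cset _ _ _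
  have hsk : s' ⊆ kids D i k p q := fun w hw => by
    obtain ⟨y, hy, he⟩ := (Finset.mem_filter.1 hw).2
    refine Finset.mem_filter.2 ⟨(Finset.mem_filter.1 hw).1, ?_⟩
    rw [← he, gcell_iterate]
    exact hcell (ball_subset_ball (by linarith) hy)
  have hd : (s' : Set (Fin D → ℤ)).PairwiseDisjoint (cset e c₀ L i (k + p)) :=
    fun a _ b _ hab => cset_disjoint hab
  have eM : μ.real U = ∑ w ∈ s', cm e c₀ L μ i (k + p) w :=
    measureReal_cells (fun _ _ => measurableSet_cset _ _ _) hd fun _ _ => Set.inter_subset_left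
  have eI : ∫ y in U, f y ∂μ = ∑ w ∈ s', ci e c₀ L μ f i (k + p) w :=
    integral_cells hf (fun _ _ => measurableSet_cset _ _ _) hd fun _ _ => Set.inter_subset_left
  have hnear := partial_near (s := kids D i k p q) (s' := s') (m := cm e c₀ L μ i (k + p))
    (I := ci e c₀ L μ f i (k + p)) (fun _ _ => measureReal_nonneg) (fun _ _ => ci_zero _ _ _) hsk
  rw [← eM, ← eI, ← (cell_split (p := p) hi hL hf q).1, ← (cell_split (p := p) hi hL hf q).2] at hnear
  have hrt : ‖(∫ y in U, f y ∂μ) - μ.real U • T‖ ≤ nearK n C Cb * s ^ n := by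
    refine hprop _ hU (hUs.trans hxs) _ _ ?_
    filter_upwards [self_mem_nhdsWithin,
      eventually_nhdsWithin_of_eventually_nhds (gt_mem_nhds hs)] with ε hε hεs
    exact h.integral_rt_near hT hx hL2 hs hε hεs hsub hs2 hU hUs
  have hup : μ.real U ≤ C * s ^ n :=
    (measureReal_mono_ball hUs).trans (h.upper x hx s hs (by linarith))
  have hlow : (s / 2) ^ n / C ≤ μ.real U :=
    (h.lower x hx (s / 2) (by linarith) (by linarith)).trans
      (measureReal_mono hin (measure_lt_top_of_subset_ball hUs).ne)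
  have hdiff : ‖μ.real U • (v - T)‖ ≤ (nearK n C Cb + C + 1) * s ^ n := by
    calc ‖μ.real U • (v - T)‖ = ‖((∫ y in U, f y ∂μ) - μ.real U • T) - ((∫ y in U, f y ∂μ) - μ.real U • v)‖ := by
          rw [smul_sub]; congr 1; abel
      _ ≤ _ := norm_sub_le _ _
      _ ≤ _ := by
        change 2 * ‖(∫ y in U, f y ∂μ) - μ.real U • v‖ ≤ μ.real U + gainQ e c₀ L μ f i k p q at hnear
        linarith [norm_nonneg ((∫ y in U, f y ∂μ) - μ.real U • v)]
  rw [norm_smul, Real.norm_of_nonneg measureReal_nonneg] at hdiff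
  have h6 := (mul_le_mul_of_nonneg_right hlow (norm_nonneg (v - T))).trans hdiff
  rw [div_pow, div_div, div_mul_eq_mul_div, div_le_iff₀ (by positivity)] at h6
  exact le_of_mul_le_mul_left (h6.trans_eq (by ring)) (pow_pos hs n)

/-- A small gain near a centre bounds the annular integrals there. -/
lemma Reg.annBdd_of_gain (h : Reg μ S n C r₀) (hT : Tested μ n Cb) (hL : 0 < L) (hL2 : L * 2 ≤ r₀)
    (hf : IntegrableOn f (ball c₀ L) μ)
    (hprop : ∀ (B : Set X), MeasurableSet B → B ⊆ ball c₀ L → ∀ (w : X) (K : ℝ),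
      (∀ᶠ ε in 𝓝[>] (0:ℝ), ‖(∫ x in B, rt μ n (ball c₀ L) ε x ∂μ) - w‖ ≤ K) →
        ‖(∫ x in B, f x ∂μ) - w‖ ≤ K)
    {i k p : ℕ} (hi : i ≤ D) {q : Fin D → ℤ} {y : X} {σ t : ℝ} (hσ : 0 < σ) (ht : 0 < t)
    (hσr : σ ≤ r₀) (hsub : dist y c₀ + 2 * σ ≤ L)
    (hcell : ∀ w, dist w y ≤ 2 * σ → gcell e c₀ L i k w = q)
    (hfine : ((D : ℝ) + 1) * L / ((D + 2 : ℕ) : ℝ) ^ (k + p) < t * σ / 4)
    (hgain : gainQ e c₀ L μ f i k p q ≤ (t * σ / 2) ^ n) :
    AnnBdd μ S n (2 * (C * 2 ^ n * (nearK n C Cb + C + 1))) y σ t := by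
  intro x hx hxd r ρ hr hrρ hρ
  have htσ : 0 < t * σ := mul_pos ht hσ
  have hr0 : 0 < r := htσ.trans_le hr
  have hnear : ∀ s, t * σ ≤ s → s ≤ σ →
      ‖(cm e c₀ L μ i k q)⁻¹ • ci e c₀ L μ f i k q -
        ∫ z in ball c₀ L \ ball x s, kern n (x - z) ∂μ‖ ≤ C * 2 ^ n * (nearK n C Cb + C + 1) := by
    intro s hs hs'
    have h1 := h.outer_near hT hL hL2 hf hprop (p := p) hi hx (s := s / 2) (by linarith)
      (ball_subset_ball' (by linarith [dist_triangle x y c₀])) (by linarith) (q := q)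
      (fun w hw => hcell w (by linarith [dist_triangle w x y, mem_ball.1 hw]))
      (hfine.trans_le (by linarith)) (hgain.trans (pow_le_pow_left₀ (by linarith) (by linarith) n))
    rwa [show 2 * (s / 2) = s by ring] at h1
  exact norm_ann_le measurableSet_ball measure_ball_lt_top hr0 hrρ
    (ball_subset_ball' (by linarith [dist_triangle x y c₀])) (hnear r hr (hrρ.trans hρ))
    (hnear ρ (hr.trans hrρ) hρ)

end near

/-- **Flat balls at every location and scale.** -/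
theorem Reg.exists_flat_uniform (h : Reg μ S n C r₀) (hT : Tested μ n Cb) {η : ℝ} (hη : 0 < η) :
    ∃ c : ℝ, 0 < c ∧ ∀ x₀ ∈ S, ∀ R, 0 < R → R ≤ r₀ →
      ∃ x ∈ S, ∃ r, c * R ≤ r ∧ r ≤ R ∧ dist x x₀ ≤ R ∧ FlatIn S n x r η := by
  classical
  have hC := h.C_pos
  set D := Module.finrank ℝ X with hD
  let e := stdOrthonormalBasis ℝ X
  set b : ℝ := ((D + 2 : ℕ) : ℝ) with hb
  set d : ℝ := (D : ℝ) + 1 with hd
  have hd1 : 1 ≤ d := le_add_of_nonneg_left (Nat.cast_nonneg _)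
  have hd0 : 0 < d := one_pos.trans_le hd1
  have hb1 : 1 < b := by rw [hb]; exact_mod_cast (by omega : 1 < D + 2)
  have hK0 : 0 ≤ nearK n C Cb := by unfold nearK; positivity
  set A := 2 * (C * 2 ^ n * (nearK n C Cb + C + 1)) with hA
  obtain ⟨τ, t, hτ, ht, ht1, hdesc⟩ := h.descent (A := A) (by positivity) D η hη
  obtain ⟨p, hp⟩ := pow_unbounded_of_one_lt (64 * d ^ 2 / t) hb1
  set Q := 2 ^ D * d * |Cb| * C * (C ^ 2 * (4 * d) ^ n) * (32 * d / t) ^ n
  obtain ⟨J₀, hJ₀⟩ := exists_nat_gt Q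
  set J := J₀ + 1 with hJ
  refine ⟨t / (64 * d ^ 2 * b ^ (J * p)), by positivity, fun x₀ hx₀ R hR hR0 => ?_⟩
  set L := R / (4 * d) with hLdef
  have hL : 0 < L := by positivity
  have hL4 : 4 * d * L = R := by rw [hLdef]; field_simp
  have hLd : L ≤ d * L := le_mul_of_one_le_left hL.le hd1
  set ν := μ.restrict (ball x₀ L) with hν
  obtain ⟨f, hfn, hprop⟩ : ∃ f : Lp X 2 ν, ‖f‖ ^ 2 ≤ |Cb| * μ.real (ball x₀ L) ∧
      ∀ (B : Set X), MeasurableSet B → B ⊆ ball x₀ L → ∀ (w : X) (K : ℝ),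
        (∀ᶠ ε in 𝓝[>] (0:ℝ), ‖(∫ x in B, rt μ n (ball x₀ L) ε x ∂μ) - w‖ ≤ K) →
          ‖(∫ x in B, f x ∂μ) - w‖ ≤ K := exists_weak_limit hT x₀ L
  have : IsFiniteMeasure ν := ⟨by rw [hν, Measure.restrict_apply_univ]; exact measure_ball_lt_top⟩
  have hfi : IntegrableOn (fun x => f x) (ball x₀ L) μ := (Lp.memLp f).integrable one_le_two
  have hf2 : IntegrableOn (fun x => ‖f x‖ ^ 2) (ball x₀ L) μ := (Lp.memLp f).integrable_norm_pow two_ne_zero
  have hE : ∫ x in ball x₀ L, ‖f x‖ ^ 2 ∂μ ≤ |Cb| * (C * L ^ n) := by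
    refine le_trans (le_of_eq ?_) (hfn.trans (mul_le_mul_of_nonneg_left (h.upper x₀ hx₀ L hL (by linarith)) (abs_nonneg _)))
    rw [← real_inner_self_eq_norm_sq, L2.inner_def]
    simp only [real_inner_self_eq_norm_sq]
    rfl
  obtain ⟨j, hjJ, hwin⟩ := exists_window (e := e) hL hfi hf2 p (J := J) (by omega)
  set k := j * p with hk
  have hbk : 0 < b ^ k := by positivity
  -- centres
  set F := (gbox D k).filter fun z => ∃ y ∈ S, dist y x₀ < L / 2 ∧ gcell e x₀ L 0 k y = z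
  have hcen : ∀ z ∈ F, ∃ y ∈ S, dist y x₀ < L / 2 ∧ gcell e x₀ L 0 k y = z := fun z hz =>
    (Finset.mem_filter.1 hz).2
  choose! y hyS hyd hyz using hcen
  set ρ := L / (4 * d * b ^ k) with hρ
  have hρ0 : 0 < ρ := by positivity
  have hρL : ρ ≤ L / 4 := by
    rw [hρ, div_le_div_iff₀ (by positivity) (by norm_num)]
    nlinarith [one_le_pow₀ hb1.le (n := k), mul_le_mul hd1 (one_le_pow₀ hb1.le (n := k)) zero_le_one hd0.le]
  have hshift : ∀ z : Fin D → ℤ, ∃ i ≤ D, ∀ x, dist x (y z) ≤ ρ →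
      gcell e x₀ L i k x = gcell e x₀ L i k (y z) := fun z =>
    exists_shift e x₀ L hL k (y z) (le_of_eq (by simp only [hρ]; rw [← hb, ← hd]; field_simp))
  choose sh hsh hshc using hshift
  have hne : F.Nonempty := by
    refine ⟨gcell e x₀ L 0 k x₀, Finset.mem_filter.2 ⟨gcell_mem e x₀ L (Nat.zero_le _) hL (mem_ball_self hL),
      x₀, hx₀, by simpa using hL, rfl⟩⟩
  -- many centres
  have hcount : b ^ (k * n) ≤ (F.card : ℝ) * (C ^ 2 * (4 * d) ^ n) := by
    set P := 2 * d * L / b ^ k with hP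
    have hP0 : 0 < P := by positivity
    have hPR : P ≤ r₀ := by
      refine le_trans (div_le_self (by positivity) (one_le_pow₀ hb1.le)) ?_
      linarith
    have hcov : ball x₀ (L / 2) ∩ S ⊆ ⋃ z ∈ F, ball (y z) P := fun x hx => by
      have hxB : x ∈ ball x₀ L := ball_subset_ball (by linarith) hx.1
      have hz : gcell e x₀ L 0 k x ∈ F :=
        Finset.mem_filter.2 ⟨gcell_mem e x₀ L (Nat.zero_le _) hL hxB, x, hx.2, hx.1, rfl⟩
      refine Set.mem_iUnion₂.2 ⟨_, hz, ?_⟩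
      rw [mem_ball, dist_eq_norm]
      refine (gcell_dist e x₀ L hL (hyz _ hz).symm).trans_lt ?_
      rw [← hb, ← hd, hP]
      gcongr
      linarith [show 0 < d * L by positivity]
    have h1 := h.lower x₀ hx₀ (L / 2) (by linarith) (by linarith)
    rw [show μ.real (ball x₀ (L / 2)) = μ.real (ball x₀ (L / 2) ∩ S) from
      congrArg ENNReal.toReal (measure_inter_conull h.null).symm] at h1
    have h2 := (h1.trans (measureReal_mono hcov (ne_of_lt ((measure_biUnion_finset_le _ _).trans_lt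
      (ENNReal.sum_lt_top.2 fun z _ => measure_ball_lt_top))))).trans (measureReal_biUnion_finset_le _ _)
    have h3 := h2.trans (Finset.sum_le_card_nsmul _ _ (C * P ^ n) fun z hz => h.upper _ (hyS z hz) P hP0 hPR)
    rw [nsmul_eq_mul, div_le_iff₀ hC] at h3
    rw [hP, div_pow _ (b ^ k) n, ← pow_mul] at h3
    rw [← mul_div_assoc, ← mul_div_assoc, div_mul_eq_mul_div, le_div_iff₀ (by positivity)] at h3
    refine le_of_mul_le_mul_left ((h3.trans_eq ?_).trans_eq' ?_) (pow_pos (show 0 < L / 2 by linarith) n)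
    · rw [show 2 * d * L = L / 2 * (4 * d) by ring, mul_pow (L / 2)]; ring
    · ring
  -- a centre with small gain
  set G := ∑ i ∈ Finset.range (D + 1), ∑ q ∈ gbox D k, gainQ e x₀ L μ (fun x => f x) i k p q
  set Δ := fun z => gainQ e x₀ L μ (fun x => f x) (sh z) k p (gcell e x₀ L (sh z) k (y z))
  have hsum : ∑ z ∈ F, Δ z ≤ 2 ^ D * G := by
    set Φ : (Fin D → ℤ) → ℕ × (Fin D → ℤ) := fun z => (sh z, gcell e x₀ L (sh z) k (y z))
    have hmap : ∀ z ∈ F, Φ z ∈ Finset.range (D + 1) ×ˢ gbox D k := fun z hz =>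
      Finset.mem_product.2 ⟨Finset.mem_range.2 (Nat.lt_succ_of_le (hsh z)),
        gcell_mem e x₀ L (hsh z) hL (mem_ball.2 ((hyd z hz).trans (by linarith)))⟩
    rw [← Finset.sum_fiberwise_of_maps_to hmap Δ, Finset.mul_sum]
    simp only [Finset.mul_sum]
    rw [← Finset.sum_product']
    refine Finset.sum_le_sum fun w hw => ?_
    obtain ⟨hw1, -⟩ := Finset.mem_product.1 hw
    have hw1' : w.1 ≤ D := Nat.lt_succ_iff.1 (Finset.mem_range.1 hw1)
    rw [Finset.sum_congr rfl (g := fun _ => gainQ e x₀ L μ (fun x => f x) w.1 k p w.2) fun z hz => by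
      rw [← (Finset.mem_filter.1 hz).2], Finset.sum_const, nsmul_eq_mul]
    refine mul_le_mul_of_nonneg_right ?_ (gainQ_nonneg hw1' hL hfi _)
    have hsub : (F.filter fun z => Φ z = w) ⊆ Fintype.piFinset fun j => Finset.Icc (w.2 j - 1) (w.2 j) := by
      intro z hz
      obtain ⟨hzF, hzw⟩ := Finset.mem_filter.1 hz
      refine Fintype.mem_piFinset.2 fun j => Finset.mem_Icc.2 ?_
      have e2 := congrFun (congrArg Prod.snd hzw) j
      have e1 := congrFun (hyz z hzF) j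
      simp only [Φ, gcell] at e1 e2
      simp only [Nat.cast_zero, zero_div, add_zero] at e1
      rw [← e1, ← e2]
      set u := ((D + 2 : ℕ) : ℝ) ^ k * (⟪e j, y z - x₀⟫ / L)
      have ha : (sh z : ℝ) / ((D : ℝ) + 1) < 1 := by
        rw [div_lt_one (by positivity)]
        exact_mod_cast Nat.lt_succ_of_le (hsh z)
      have b1 := Int.floor_le_floor (show u ≤ u + (sh z : ℝ) / ((D : ℝ) + 1) from le_add_of_nonneg_right (by positivity))
      have b2 := Int.floor_le_floor (show u + (sh z : ℝ) / ((D : ℝ) + 1) ≤ u + 1 by linarith)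
      rw [Int.floor_add_one] at b2
      omega
    have hc := Finset.card_le_card hsub
    simp [Fintype.card_piFinset] at hc
    exact_mod_cast hc
  obtain ⟨z, hzF, hzmin⟩ := Finset.exists_min_image F Δ hne
  have hzle : (F.card : ℝ) * Δ z ≤ 2 ^ D * G := by
    refine le_trans ?_ hsum
    simpa using Finset.card_nsmul_le_sum F Δ (Δ z) hzmin
  have hΔ0 : 0 ≤ Δ z := gainQ_nonneg (hsh z) hL hfi _
  have hΔ : Δ z ≤ (t * L / (32 * d * b ^ k)) ^ n := by
    have h1 : b ^ (k * n) * Δ z ≤ 2 ^ D * G * (C ^ 2 * (4 * d) ^ n) :=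
      (mul_le_mul_of_nonneg_right hcount hΔ0).trans ((le_of_eq (by ring)).trans
        (mul_le_mul_of_nonneg_right hzle (by positivity)))
    have h2 : (J : ℝ) * G ≤ d * (|Cb| * (C * L ^ n)) :=
      hwin.trans (mul_le_mul_of_nonneg_left hE hd0.le)
    have hJQ : Q ≤ J := hJ₀.le.trans (by exact_mod_cast Nat.le_succ J₀)
    have hJ0 : (0:ℝ) < J := by exact_mod_cast Nat.succ_pos J₀
    have h3 : (J : ℝ) * (b ^ (k * n) * Δ z) * (32 * d / t) ^ n ≤ (J : ℝ) * L ^ n := by
      refine (mul_le_mul_of_nonneg_right (mul_le_mul_of_nonneg_left h1 hJ0.le) (by positivity)).trans ?_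
      calc (J : ℝ) * (2 ^ D * G * (C ^ 2 * (4 * d) ^ n)) * (32 * d / t) ^ n
          = 2 ^ D * (C ^ 2 * (4 * d) ^ n) * (32 * d / t) ^ n * (J * G) := by ring
        _ ≤ 2 ^ D * (C ^ 2 * (4 * d) ^ n) * (32 * d / t) ^ n * (d * (|Cb| * (C * L ^ n))) :=
            mul_le_mul_of_nonneg_left h2 (by positivity)
        _ = Q * L ^ n := by simp only [Q]; ring
        _ ≤ _ := mul_le_mul_of_nonneg_right hJQ (by positivity)
    rw [mul_assoc] at h3
    have h4 := le_of_mul_le_mul_left h3 hJ0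
    rw [mul_assoc] at h4
    rw [show t * L / (32 * d * b ^ k) = L / (b ^ k * (32 * d / t)) by field_simp, div_pow,
      le_div_iff₀ (by positivity), mul_pow, ← pow_mul]
    linarith [show b ^ (k * n) * (Δ z * (32 * d / t) ^ n) = Δ z * (b ^ (k * n) * (32 * d / t) ^ n) by ring]
  -- annular integrals near the centre
  have hys := hyS z hzF
  have hyd' := hyd z hzF
  have hP : AnnBdd μ S n A (y z) (ρ / 4) t := by
    refine h.annBdd_of_gain (k := k) (p := p) hT hL (by linarith) hfi hprop (hsh z) (by linarith) ht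
      (by linarith) (by linarith) (fun w hw => hshc z w (by linarith)) ?_ (hΔ.trans_eq ?_)
    · rw [← hb, ← hd, pow_add, hρ, div_lt_iff₀ (by positivity),
        show t * (L / (4 * d * b ^ k) / 4) / 4 * (b ^ k * b ^ p) = b ^ p * t * L / (64 * d) by
          field_simp; ring, lt_div_iff₀ (by positivity)]
      rw [div_lt_iff₀ ht] at hp
      have := mul_lt_mul_of_pos_right hp hL
      linarith [show d * L * (64 * d) = 64 * d ^ 2 * L by ring]
    · congr 1
      rw [hρ]; field_simp; ring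
  obtain ⟨x, hxS, r, hr, hrR, hxd, hflat⟩ := hdesc (y z) hys (ρ / 4) (by positivity) (by linarith) hP
    ⟨y z, ⊤, le_of_eq (finrank_top ℝ X), fun w _ _ => ⟨w - y z, trivial, by simp; positivity⟩⟩
  refine ⟨x, hxS, r, le_trans ?_ hr, by linarith, (dist_triangle x (y z) x₀).trans (by linarith), hflat⟩
  have hbJ : b ^ k ≤ b ^ (J * p) := pow_le_pow_right₀ hb1.le (Nat.mul_le_mul_right p hjJ.le)
  rw [hρ, hLdef, show t / (64 * d ^ 2 * b ^ (J * p)) * R = t * R / (64 * d ^ 2) / b ^ (J * p) by field_simp,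
    show t * (R / (4 * d) / (4 * d * b ^ k) / 4) = t * R / (64 * d ^ 2) / b ^ k by field_simp; ring]
  exact div_le_div_of_nonneg_left (by positivity) hbk hbJ

/-- Flat balls near every point of the support. -/
theorem Reg.exists_flat (h : Reg μ S n C r₀) (hT : Tested μ n Cb) {x₀ : X} (hx₀ : x₀ ∈ S) {δ η : ℝ}
    (hδ : 0 < δ) (hη : 0 < η) :
    ∃ x ∈ S, ∃ r, 0 < r ∧ r ≤ δ ∧ dist x x₀ ≤ δ ∧ FlatIn S n x r η := by
  obtain ⟨c, hc, hflat⟩ := h.exists_flat_uniform hT hη
  obtain ⟨x, hx, r, hr, hrR, hd, hF⟩ := hflat x₀ hx₀ (min δ r₀) (lt_min hδ h.r_pos) (min_le_right _ _)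
  exact ⟨x, hx, r, (mul_pos hc (lt_min hδ h.r_pos)).trans_le hr, hrR.trans (min_le_left _ _),
    hd.trans (min_le_left _ _), hF⟩

end

end Vale.Agent.P120.Flat
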