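import Vale.Agent.P120.Flat.Grid

/-!
Energy of the averages of a square integrable function over the grids, and a good window of levels.
-/

set_option linter.unusedSectionVars false

open MeasureTheory Filter Topology Set Metric
open scoped RealInnerProductSpace

namespace Vale.Agent.P120.Flat

noncomputable section

variable {X : Type*} [NormedAddCommGroup X] [InnerProductSpace ℝ X] [FiniteDimensional ℝ X]
  [MeasurableSpace X] [BorelSpace X]
variable {D : ℕ} (e : OrthonormalBasis (Fin D) ℝ X) (x₀ : X) (L : ℝ) (μ : Measure X) (f : X → X)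

/-- A cell inside the ball of radius `L`. -/
def cset (i k : ℕ) (z : Fin D → ℤ) : Set X := ball x₀ L ∩ {x | gcell e x₀ L i k x = z}

/-- Mass of a cell. -/
def cm (i k : ℕ) (z : Fin D → ℤ) : ℝ := μ.real (cset e x₀ L i k z)

/-- Integral over a cell. -/
def ci (i k : ℕ) (z : Fin D → ℤ) : X := ∫ x in cset e x₀ L i k z, f x ∂μ

/-- Children of a cell `p` levels below. -/
def kids (D i k p : ℕ) (z : Fin D → ℤ) : Finset (Fin D → ℤ) :=
  (gbox D (k + p)).filter fun w => (gpar i)^[p] w = z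

/-- Gain of energy inside a cell between levels `k` and `k + p`. -/
def gainQ (i k p : ℕ) (z : Fin D → ℤ) : ℝ :=
  nrg (kids D i k p z) (cm e x₀ L μ i (k + p)) (ci e x₀ L μ f i (k + p)) -
    ‖ci e x₀ L μ f i k z‖ ^ 2 / cm e x₀ L μ i k z

/-- Total energy at a level. -/
def enE (i k : ℕ) : ℝ := nrg (gbox D k) (cm e x₀ L μ i k) (ci e x₀ L μ f i k)

variable {e x₀ L μ f}

lemma gcell_iterate (i k : ℕ) (x : X) : ∀ p : ℕ,
    (gpar i)^[p] (gcell e x₀ L i (k + p) x) = gcell e x₀ L i k x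
  | 0 => rfl
  | p + 1 => by
    rw [Function.iterate_succ_apply, ← Nat.add_assoc, ← gcell_par]
    exact gcell_iterate i k x p

lemma measurableSet_cset (i k : ℕ) (z : Fin D → ℤ) : MeasurableSet (cset e x₀ L i k z) :=
  measurableSet_ball.inter (measurableSet_gcell e x₀ L i k z)

lemma cset_disjoint {i k : ℕ} {z z' : Fin D → ℤ} (h : z ≠ z') :
    Disjoint (cset e x₀ L i k z) (cset e x₀ L i k z') :=
  Set.disjoint_left.2 fun _ hx hx' => h (hx.2.symm.trans hx'.2)

lemma biUnion_cset {i k : ℕ} (hi : i ≤ D) (hL : 0 < L) :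
    ⋃ z ∈ gbox D k, cset e x₀ L i k z = ball x₀ L := by
  refine Set.Subset.antisymm (Set.iUnion₂_subset fun z _ => Set.inter_subset_left) fun x hx => ?_
  exact Set.mem_iUnion₂.2 ⟨_, gcell_mem e x₀ L hi hL hx, hx, rfl⟩

lemma biUnion_kids {i k p : ℕ} (hi : i ≤ D) (hL : 0 < L) (z : Fin D → ℤ) :
    ⋃ w ∈ kids D i k p z, cset e x₀ L i (k + p) w = cset e x₀ L i k z := by
  refine Set.Subset.antisymm (Set.iUnion₂_subset fun w hw => ?_) fun x hx => ?_
  · rintro x ⟨hx, rfl⟩
    exact ⟨hx, ((gcell_iterate i k x p).symm.trans (Finset.mem_filter.1 hw).2)⟩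
  · refine Set.mem_iUnion₂.2 ⟨gcell e x₀ L i (k + p) x, Finset.mem_filter.2
      ⟨gcell_mem e x₀ L hi hL hx.1, (gcell_iterate i k x p).trans hx.2⟩, hx.1, rfl⟩

variable [IsLocallyFiniteMeasure μ]

lemma cset_lt_top (i k : ℕ) (z : Fin D → ℤ) : μ (cset e x₀ L i k z) < ⊤ :=
  measure_lt_top_of_subset_ball Set.inter_subset_left

lemma measureReal_cells {ι : Type*} {A : ι → Set X} {s : Finset ι}
    (hA : ∀ a ∈ s, MeasurableSet (A a)) (hd : (s : Set ι).PairwiseDisjoint A)
    (hs : ∀ a ∈ s, A a ⊆ ball x₀ L) :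
    μ.real (⋃ a ∈ s, A a) = ∑ a ∈ s, μ.real (A a) :=
  measureReal_biUnion_finset hd hA fun a ha => (measure_lt_top_of_subset_ball (hs a ha)).ne

lemma integral_cells {ι : Type*} {A : ι → Set X} {s : Finset ι} (hf : IntegrableOn f (ball x₀ L) μ)
    (hA : ∀ a ∈ s, MeasurableSet (A a)) (hd : (s : Set ι).PairwiseDisjoint A)
    (hs : ∀ a ∈ s, A a ⊆ ball x₀ L) :
    ∫ x in ⋃ a ∈ s, A a, f x ∂μ = ∑ a ∈ s, ∫ x in A a, f x ∂μ :=
  integral_biUnion_finset s hA hd fun a ha => hf.mono_set (hs a ha)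

lemma ci_zero (i k : ℕ) (z : Fin D → ℤ) (h : cm e x₀ L μ i k z = 0) : ci e x₀ L μ f i k z = 0 := by
  refine setIntegral_measure_zero _ ?_
  exact (measureReal_eq_zero_iff (cset_lt_top i k z).ne).1 h

/-- The mass and the integral of a cell are those of its children. -/
lemma cell_split {i k p : ℕ} (hi : i ≤ D) (hL : 0 < L) (hf : IntegrableOn f (ball x₀ L) μ) (z : Fin D → ℤ) :
    cm e x₀ L μ i k z = ∑ w ∈ kids D i k p z, cm e x₀ L μ i (k + p) w ∧
      ci e x₀ L μ f i k z = ∑ w ∈ kids D i k p z, ci e x₀ L μ f i (k + p) w := by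
  have hd : (kids D i k p z : Set (Fin D → ℤ)).PairwiseDisjoint (cset e x₀ L i (k + p)) :=
    fun a _ b _ hab => cset_disjoint hab
  refine ⟨?_, ?_⟩
  · rw [cm, ← biUnion_kids (p := p) hi hL z, measureReal_cells (fun _ _ => measurableSet_cset _ _ _) hd
      fun _ _ => Set.inter_subset_left]
    rfl
  · rw [ci, ← biUnion_kids (p := p) hi hL z, integral_cells hf (fun _ _ => measurableSet_cset _ _ _) hd
      fun _ _ => Set.inter_subset_left]
    rfl

lemma gainQ_nonneg {i k p : ℕ} (hi : i ≤ D) (hL : 0 < L) (hf : IntegrableOn f (ball x₀ L) μ) (z : Fin D → ℤ) :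
    0 ≤ gainQ e x₀ L μ f i k p z := by
  rw [gainQ, (cell_split (p := p) hi hL hf z).1, (cell_split (p := p) hi hL hf z).2]
  exact gain_nonneg (fun w _ => measureReal_nonneg) fun w _ => ci_zero _ _ _

/-- The gains of all cells add up to the gain of the level. -/
lemma sum_gainQ {i k p : ℕ} (hi : i ≤ D) (hL : 0 < L) (hf : IntegrableOn f (ball x₀ L) μ) :
    ∑ z ∈ gbox D k, gainQ e x₀ L μ f i k p z = enE e x₀ L μ f i (k + p) - enE e x₀ L μ f i k := by
  classical
  simp only [gainQ, Finset.sum_sub_distrib, enE, nrg]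
  congr 1
  refine (Finset.sum_congr rfl fun z hz => ?_).trans ((Finset.sum_fiberwise_of_maps_to
    (s := (gbox D (k + p)).filter fun w => (gpar i)^[p] w ∈ gbox D k) (g := (gpar i)^[p]) (t := gbox D k)
    (fun w hw => (Finset.mem_filter.1 hw).2)
    (fun w => ‖ci e x₀ L μ f i (k + p) w‖ ^ 2 / cm e x₀ L μ i (k + p) w)).trans
      (Finset.sum_subset (Finset.filter_subset _ _) fun w hw hnot => ?_))
  · refine Finset.sum_congr ?_ fun _ _ => rfl
    ext w
    simp only [kids, Finset.mem_filter]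
    exact ⟨fun h => ⟨⟨h.1, h.2 ▸ hz⟩, h.2⟩, fun h => ⟨h.1.1, h.2⟩⟩
  have : cset e x₀ L i (k + p) w = ∅ := Set.eq_empty_of_forall_notMem fun x hx =>
    hnot (Finset.mem_filter.2 ⟨hw, by rw [← hx.2, gcell_iterate]; exact gcell_mem e x₀ L hi hL hx.1⟩)
  simp [ci, this]

lemma enE_nonneg (i k : ℕ) : 0 ≤ enE e x₀ L μ f i k :=
  Finset.sum_nonneg fun _ _ => div_nonneg (sq_nonneg _) measureReal_nonneg

/-- Energy is bounded by the square integral. -/
lemma enE_le {i k : ℕ} (hi : i ≤ D) (hL : 0 < L) (hf : IntegrableOn f (ball x₀ L) μ)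
    (hf2 : IntegrableOn (fun x => ‖f x‖ ^ 2) (ball x₀ L) μ) :
    enE e x₀ L μ f i k ≤ ∫ x in ball x₀ L, ‖f x‖ ^ 2 ∂μ := by
  rw [← biUnion_cset (e := e) hi hL (k := k), integral_biUnion_finset _ (fun _ _ => measurableSet_cset _ _ _)
    (fun a _ b _ hab => cset_disjoint hab) fun z _ => hf2.mono_set Set.inter_subset_left]
  refine Finset.sum_le_sum fun z _ => ?_
  rcases (measureReal_nonneg (μ := μ) (s := cset e x₀ L i k z)).eq_or_lt with h0 | h0
  · rw [cm, ← h0, div_zero]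
    exact setIntegral_nonneg (measurableSet_cset _ _ _) fun x _ => sq_nonneg _
  · rw [cm, div_le_iff₀ h0]
    set A := cset e x₀ L i k z with hA
    have i1 : IntegrableOn (fun x => ‖f x‖) A μ := (hf.mono_set Set.inter_subset_left).norm
    have i2 := hf2.mono_set (show A ⊆ ball x₀ L from Set.inter_subset_left)
    set N := ∫ x in A, ‖f x‖ ∂μ
    have hN : ‖ci e x₀ L μ f i k z‖ ≤ N := norm_integral_le_integral_norm _
    have hb := pow_le_pow_left₀ (norm_nonneg _) hN 2
    refine hb.trans ?_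
    set a := N / μ.real A
    have h1 : ∫ x in A, (2 * a * ‖f x‖ - a ^ 2) ∂μ ≤ ∫ x in A, ‖f x‖ ^ 2 ∂μ :=
      setIntegral_mono ((i1.const_mul _).sub (integrableOn_const (cset_lt_top i k z).ne)) i2
        fun x => by nlinarith [sq_nonneg (‖f x‖ - a)]
    rw [integral_sub (i1.const_mul _) (integrableOn_const (cset_lt_top i k z).ne), integral_const_mul,
      setIntegral_const, smul_eq_mul] at h1
    have h2 : 2 * a * N - μ.real A * a ^ 2 = N ^ 2 / μ.real A := by
      simp only [a]; field_simp; ring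
    rw [h2, div_le_iff₀ h0] at h1
    exact h1

/-- Some window of `p` levels has a small total gain in all grids. -/
lemma exists_window (hL : 0 < L) (hf : IntegrableOn f (ball x₀ L) μ)
    (hf2 : IntegrableOn (fun x => ‖f x‖ ^ 2) (ball x₀ L) μ) (p : ℕ) {J : ℕ} (hJ : 0 < J) :
    ∃ j < J, (J : ℝ) * (∑ i ∈ Finset.range (D + 1), ∑ z ∈ gbox D (j * p), gainQ e x₀ L μ f i (j * p) p z) ≤
      ((D : ℝ) + 1) * ∫ x in ball x₀ L, ‖f x‖ ^ 2 ∂μ := by
  set g : ℕ → ℝ := fun j => ∑ i ∈ Finset.range (D + 1), ∑ z ∈ gbox D (j * p), gainQ e x₀ L μ f i (j * p) p z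
  have htot : ∑ j ∈ Finset.range J, g j ≤ ((D : ℝ) + 1) * ∫ x in ball x₀ L, ‖f x‖ ^ 2 ∂μ := by
    simp only [g]
    rw [Finset.sum_comm]
    refine (Finset.sum_le_card_nsmul _ _ (∫ x in ball x₀ L, ‖f x‖ ^ 2 ∂μ) fun i hi => ?_).trans_eq
      (by simp)
    have hi' : i ≤ D := Nat.lt_succ_iff.1 (Finset.mem_range.1 hi)
    simp only [sum_gainQ hi' hL hf]
    have e1 : ∀ j, j * p + p = (j + 1) * p := fun j => by ring
    simp only [e1]
    rw [Finset.sum_range_sub (fun j => enE e x₀ L μ f i (j * p)) J]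
    linarith [enE_le (e := e) hi' hL hf hf2 (k := J * p), enE_nonneg (e := e) (x₀ := x₀) (L := L) (μ := μ) (f := f) i (0 * p)]
  obtain ⟨j, hj, hmin⟩ := Finset.exists_min_image (Finset.range J) g ⟨0, Finset.mem_range.2 hJ⟩
  refine ⟨j, Finset.mem_range.1 hj, le_trans ?_ htot⟩
  simpa using Finset.card_nsmul_le_sum (Finset.range J) g (g j) hmin

end

end Vale.Agent.P120.Flat
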